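import Mathlib
import Vale.Agent.P262.Prekopa

/-!
Prekopa-Leindler inequalities for Lebesgue measure on `Fin n → ℝ` and, for geometric means,
on the open orthant.
-/

open MeasureTheory Set
open scoped ENNReal

namespace Vale.Agent.P254.Sym

lemma measurable_cons (n : ℕ) :
    Measurable fun p : ℝ × (Fin n → ℝ) => (Fin.cons p.1 p.2 : Fin (n + 1) → ℝ) := by
  refine measurable_pi_iff.2 fun i => ?_
  refine Fin.cases ?_ (fun j => ?_) i
  · simpa using measurable_fst
  · simp only [Fin.cons_succ]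
    exact (measurable_pi_apply j).comp measurable_snd

lemma lintegral_pi_cons (μ : Measure ℝ) [SigmaFinite μ] {n : ℕ}
    {u : (Fin (n + 1) → ℝ) → ℝ≥0∞} (hu : Measurable u) :
    ∫⁻ x, u x ∂Measure.pi (fun _ : Fin (n + 1) => μ)
      = ∫⁻ t, ∫⁻ z, u (Fin.cons t z) ∂Measure.pi (fun _ : Fin n => μ) ∂μ := by
  have hmp := (measurePreserving_piFinSuccAbove (fun _ : Fin (n + 1) => μ) 0).symm
  rw [← hmp.lintegral_comp hu, lintegral_prod]
  · simp [MeasurableEquiv.piFinSuccAbove, Fin.consEquiv]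
  · exact (hu.comp (MeasurableEquiv.measurable _)).aemeasurable

lemma lintegral_pi_zero (μ : Measure ℝ) [SigmaFinite μ] (u : (Fin 0 → ℝ) → ℝ≥0∞) :
    ∫⁻ x, u x ∂Measure.pi (fun _ : Fin 0 => μ) = u default := by
  rw [Measure.pi_of_empty, lintegral_dirac]
  exact congrArg u (Subsingleton.elim _ _)

/-- Prekopa-Leindler for Lebesgue measure on `Fin n → ℝ`. -/
theorem pl_vol {a b : ℝ} (ha : 0 < a) (hb : 0 < b) (hab : a + b = 1) :
    ∀ (n : ℕ) {f g h : (Fin n → ℝ) → ℝ≥0∞}, Measurable f → Measurable g → Measurable h →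
    (∀ x y, f x ^ a * g y ^ b ≤ h (a • x + b • y)) →
    (∫⁻ x, f x) ^ a * (∫⁻ x, g x) ^ b ≤ ∫⁻ x, h x := by
  intro n
  induction n with
  | zero =>
    intro f g h _ _ _ hle
    simp only [volume_pi, lintegral_pi_zero]
    refine (hle _ _).trans (le_of_eq ?_)
    congr 1
    exact Subsingleton.elim _ _
  | succ n ih =>
    intro f g h hf hg hh hle
    simp only [volume_pi, lintegral_pi_cons _ hf, lintegral_pi_cons _ hg, lintegral_pi_cons _ hh]
    refine Vale.Agent.P262.pl_real ha hb hab ((hf.comp (measurable_cons n)).lintegral_prod_right')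
      ((hg.comp (measurable_cons n)).lintegral_prod_right')
      ((hh.comp (measurable_cons n)).lintegral_prod_right') ?_
    intro s t
    refine ih (hf.comp ((measurable_cons n).comp (measurable_const.prodMk measurable_id)))
      (hg.comp ((measurable_cons n).comp (measurable_const.prodMk measurable_id)))
      (hh.comp ((measurable_cons n).comp (measurable_const.prodMk measurable_id))) fun x y => ?_
    refine (hle _ _).trans (le_of_eq ?_)
    congr 1
    ext i
    refine Fin.cases ?_ (fun j => ?_) i <;> simp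

/-- The square of the mean of the square roots. -/
noncomputable def rmean (s t : ℝ) : ℝ := ((Real.sqrt s + Real.sqrt t) / 2) ^ 2

/-- The weight `√(st) / rmean s t`. -/
noncomputable def gwt (s t : ℝ) : ℝ := Real.sqrt s * Real.sqrt t / rmean s t

lemma gwt_nonneg (s t : ℝ) : 0 ≤ gwt s t := by
  rw [gwt, rmean]; positivity

lemma lintegral_sq_subst (u : ℝ → ℝ≥0∞) :
    ∫⁻ x in Ioi (0 : ℝ), u x = ∫⁻ y in Ioi (0 : ℝ), ENNReal.ofReal (2 * y) * u (y ^ 2) := by
  have him : (fun y : ℝ => y ^ 2) '' Ioi 0 = Ioi 0 := by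
    ext x
    constructor
    · rintro ⟨y, hy, rfl⟩
      exact pow_pos (mem_Ioi.1 hy) 2
    · intro hx
      exact ⟨Real.sqrt x, Real.sqrt_pos.2 hx, Real.sq_sqrt (le_of_lt hx)⟩
  have hinj : InjOn (fun y : ℝ => y ^ 2) (Ioi 0) := fun x hx y hy h =>
    (pow_left_inj₀ (le_of_lt hx) (le_of_lt hy) two_ne_zero).1 h
  have hd : ∀ y ∈ Ioi (0 : ℝ), HasDerivWithinAt (fun y : ℝ => y ^ 2) (2 * y) (Ioi 0) y :=
    fun y _ => by simpa using (hasDerivAt_pow 2 y).hasDerivWithinAt
  have := lintegral_image_eq_lintegral_abs_deriv_mul measurableSet_Ioi hd hinj u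
  rw [him] at this
  rw [this]
  refine setLIntegral_congr_fun measurableSet_Ioi fun y (hy : 0 < y) => ?_
  rw [abs_of_pos (by positivity)]

/-- Weighted Prekopa-Leindler on the half-line for the mean of square roots. -/
lemma pl_half {f g h : ℝ → ℝ≥0∞} (hf : Measurable f) (hg : Measurable g) (hh : Measurable h)
    (hle : ∀ s t, 0 < s → 0 < t → ENNReal.ofReal (gwt s t) * (f s * g t) ≤ h (rmean s t) ^ 2) :
    (∫⁻ x in Ioi (0 : ℝ), f x) * (∫⁻ x in Ioi (0 : ℝ), g x)
      ≤ (∫⁻ x in Ioi (0 : ℝ), h x) ^ 2 := by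
  set T : (ℝ → ℝ≥0∞) → ℝ → ℝ≥0∞ :=
    fun u => (Ioi (0 : ℝ)).indicator fun y => ENNReal.ofReal (2 * y) * u (y ^ 2) with hT
  have hTm : ∀ u, Measurable u → Measurable (T u) := fun u hu =>
    ((measurable_const.mul measurable_id).ennreal_ofReal.mul
      (hu.comp (measurable_id.pow_const 2))).indicator measurableSet_Ioi
  have hTi : ∀ u, ∫⁻ x, T u x = ∫⁻ x in Ioi (0 : ℝ), u x := fun u => by
    rw [hT, lintegral_indicator measurableSet_Ioi, lintegral_sq_subst u]
  have key := Vale.Agent.P262.pl_real (a := 1 / 2) (b := 1 / 2) (by norm_num) (by norm_num)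
    (by norm_num) (hTm f hf) (hTm g hg) (hTm h hh) ?_
  · rw [hTi, hTi, hTi, ← ENNReal.mul_rpow_of_nonneg _ _ (by norm_num)] at key
    have k2 := pow_le_pow_left' key 2
    rwa [← ENNReal.rpow_natCast, ← ENNReal.rpow_mul, show (1 / 2 : ℝ) * (2 : ℕ) = 1 by norm_num,
      ENNReal.rpow_one] at k2
  intro x y
  have hmul : T f x * T g y ≤ T h ((1 / 2) * x + (1 / 2) * y) ^ 2 := by
    rcases le_or_gt x 0 with hx | hx
    · simp [hT, not_lt.2 hx]
    rcases le_or_gt y 0 with hy | hy
    · simp [hT, not_lt.2 hy]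
    have hu : (0 : ℝ) < 1 / 2 * x + 1 / 2 * y := by positivity
    simp only [hT, indicator_of_mem (mem_Ioi.2 hx), indicator_of_mem (mem_Ioi.2 hy),
      indicator_of_mem (mem_Ioi.2 hu)]
    have hr : rmean (x ^ 2) (y ^ 2) = (1 / 2 * x + 1 / 2 * y) ^ 2 := by
      rw [rmean, Real.sqrt_sq hx.le, Real.sqrt_sq hy.le]; ring
    have hw : gwt (x ^ 2) (y ^ 2) = x * y / (1 / 2 * x + 1 / 2 * y) ^ 2 := by
      rw [gwt, hr, Real.sqrt_sq hx.le, Real.sqrt_sq hy.le]
    have hc := hle (x ^ 2) (y ^ 2) (by positivity) (by positivity)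
    rw [hr, hw] at hc
    have e : 2 * x * (2 * y) =
        (2 * (1 / 2 * x + 1 / 2 * y)) ^ 2 * (x * y / (1 / 2 * x + 1 / 2 * y) ^ 2) := by
      field_simp
    calc ENNReal.ofReal (2 * x) * f (x ^ 2) * (ENNReal.ofReal (2 * y) * g (y ^ 2))
        = ENNReal.ofReal ((2 * (1 / 2 * x + 1 / 2 * y)) ^ 2) *
            (ENNReal.ofReal (x * y / (1 / 2 * x + 1 / 2 * y) ^ 2) * (f (x ^ 2) * g (y ^ 2))) := by
          rw [← mul_assoc (ENNReal.ofReal ((2 * (1 / 2 * x + 1 / 2 * y)) ^ 2)),
            ← ENNReal.ofReal_mul (by positivity), ← e,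
            ENNReal.ofReal_mul (p := 2 * x) (by positivity)]
          ring
      _ ≤ ENNReal.ofReal ((2 * (1 / 2 * x + 1 / 2 * y)) ^ 2) *
            h ((1 / 2 * x + 1 / 2 * y) ^ 2) ^ 2 := by gcongr
      _ = _ := by rw [mul_pow (ENNReal.ofReal _), ← ENNReal.ofReal_pow (by positivity)]
  calc T f x ^ (1 / 2 : ℝ) * T g y ^ (1 / 2 : ℝ) = (T f x * T g y) ^ (1 / 2 : ℝ) :=
        (ENNReal.mul_rpow_of_nonneg _ _ (by norm_num)).symm
    _ ≤ (T h (1 / 2 * x + 1 / 2 * y) ^ 2) ^ (1 / 2 : ℝ) :=
        ENNReal.rpow_le_rpow hmul (by norm_num)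
    _ = _ := by
        rw [← ENNReal.rpow_natCast, ← ENNReal.rpow_mul]
        norm_num

/-- Lebesgue measure on the open orthant. -/
noncomputable def orth (n : ℕ) : Measure (Fin n → ℝ) :=
  Measure.pi fun _ : Fin n => (volume : Measure ℝ).restrict (Ioi 0)

lemma orth_eq (n : ℕ) :
    orth n = (volume : Measure (Fin n → ℝ)).restrict (univ.pi fun _ => Ioi 0) := by
  rw [orth, volume_pi, Measure.restrict_pi_pi]

/-- Weighted Prekopa-Leindler on the orthant for the coordinatewise mean of square roots. -/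
theorem pl_orth : ∀ (n : ℕ) {f g h : (Fin n → ℝ) → ℝ≥0∞}, Measurable f → Measurable g →
    Measurable h →
    (∀ x y : Fin n → ℝ, (∀ i, 0 < x i) → (∀ i, 0 < y i) →
      ENNReal.ofReal (∏ i, gwt (x i) (y i)) * (f x * g y) ≤ h (fun i => rmean (x i) (y i)) ^ 2) →
    (∫⁻ x, f x ∂orth n) * (∫⁻ x, g x ∂orth n) ≤ (∫⁻ x, h x ∂orth n) ^ 2 := by
  intro n
  induction n with
  | zero =>
    intro f g h _ _ _ hle
    simp only [orth, lintegral_pi_zero]
    have := hle default default (fun i => i.elim0) (fun i => i.elim0)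
    simp only [Finset.univ_eq_empty, Finset.prod_empty, ENNReal.ofReal_one, one_mul] at this
    refine this.trans (le_of_eq ?_)
    congr 2
    exact Subsingleton.elim _ _
  | succ n ih =>
    intro f g h hf hg hh hle
    simp only [orth, lintegral_pi_cons _ hf, lintegral_pi_cons _ hg, lintegral_pi_cons _ hh]
    refine pl_half ((hf.comp (measurable_cons n)).lintegral_prod_right')
      ((hg.comp (measurable_cons n)).lintegral_prod_right')
      ((hh.comp (measurable_cons n)).lintegral_prod_right') ?_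
    intro s t hs ht
    have hfs : Measurable fun z : Fin n → ℝ => f (Fin.cons s z) :=
      hf.comp ((measurable_cons n).comp (measurable_const.prodMk measurable_id))
    have hgt : Measurable fun z : Fin n → ℝ => g (Fin.cons t z) :=
      hg.comp ((measurable_cons n).comp (measurable_const.prodMk measurable_id))
    have hhu : Measurable fun z : Fin n → ℝ => h (Fin.cons (rmean s t) z) :=
      hh.comp ((measurable_cons n).comp (measurable_const.prodMk measurable_id))
    have := ih (hfs.const_mul (ENNReal.ofReal (gwt s t))) hgt hhu fun x y hx hy => ?_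
    · rw [lintegral_const_mul _ hfs, mul_assoc] at this
      exact this
    have hc := hle (Fin.cons s x) (Fin.cons t y) (Fin.cases (by simpa using hs) (by simpa using hx))
      (Fin.cases (by simpa using ht) (by simpa using hy))
    have he : (fun i => rmean ((Fin.cons s x : Fin (n + 1) → ℝ) i)
        ((Fin.cons t y : Fin (n + 1) → ℝ) i)) = Fin.cons (rmean s t) fun i => rmean (x i) (y i) := by
      funext i
      refine Fin.cases ?_ (fun j => ?_) i <;> simp
    rw [he, Fin.prod_univ_succ] at hc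
    simp only [Fin.cons_zero, Fin.cons_succ] at hc
    rw [ENNReal.ofReal_mul (gwt_nonneg _ _)] at hc
    refine le_trans (le_of_eq ?_) hc
    ring

end Vale.Agent.P254.Sym
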