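import Vale.Agent.P254.Sym.Body

/-!
Unconditional bodies invariant inside large coordinate classes, given the variance bound.
-/

open MeasureTheory Set

namespace Vale.Agent.P254.Sym

/-- The variance bound for coordinate sums. -/
def HasVar : Prop :=
  ∀ {n : ℕ} {A : Set (Fin n → ℝ)}, Down A → ∀ (I : Finset (Fin n)) (m : ℝ),
    m * volume.real A = (∫ x in A, ∑ i ∈ I, x i) →
      ∫ x in A, (∑ i ∈ I, x i - m) ^ 2 ≤ 4 * ∫ x in A, ∑ i ∈ I, x i ^ 2

theorem log_volume_bound (hM : HasMarg) (hVar : HasVar) {p : ℕ} {A : Set (Fin (p + 1) → ℝ)}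
    (hA : Down A) {κ : Type*} [DecidableEq κ] {c : Fin (p + 1) → κ} (h : Invariant c A)
    (hV : 0 < volume.real A) :
    (∀ i, 0 < ∫ x in A, x i) ∧
    (∀ i, volume.real A * (∫ x in A, x i ^ 2) ≤ 2 * (∫ x in A, x i) ^ 2) ∧
    ∑ k, (Real.log (2 * ((∫ x in A, x k) / volume.real A)) - 144 / (later c k).card
      - 2 * Real.exp (-6)) ≤ Real.log (volume.real A) := by
  set V := volume.real A with hVdef
  have hint : ∀ i, IntegrableOn (fun x : Fin (p + 1) → ℝ => x i) A := fun i =>
    (continuous_apply i).continuousOn.integrableOn_compact hA.compact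
  have hint2 : ∀ i, IntegrableOn (fun x : Fin (p + 1) → ℝ => x i ^ 2) A := fun i =>
    ((continuous_apply i).pow 2).continuousOn.integrableOn_compact hA.compact
  have hM0 : ∀ i, 0 < ∫ x in A, x i := by
    intro i
    obtain ⟨R, hg⟩ := hM hA i
    rcases (setIntegral_nonneg hA.measurable fun x hx => hA.nonneg x hx i).eq_or_lt with h0 | h0
    · exfalso
      have hz := (setIntegral_eq_zero_iff_of_nonneg_ae
        ((ae_restrict_iff' hA.measurable).2 (Filter.Eventually.of_forall fun x hx =>
          hA.nonneg x hx i)) (hint i)).1 h0.symm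
      have hnull : volume.restrict A {x | x i ≠ 0} = 0 := by simpa [Filter.EventuallyEq, ae_iff] using hz
      have hpl : volume {x : Fin (p + 1) → ℝ | x i = 0} = 0 :=
        Measure.pi_hyperplane (fun _ => volume) i 0
      have : volume.restrict A univ = 0 := by
        refine le_antisymm ?_ zero_le
        calc volume.restrict A univ
            ≤ volume.restrict A ({x | x i ≠ 0} ∪ {x | x i = 0}) :=
              measure_mono fun x _ => (em (x i = 0)).symm
          _ ≤ _ := measure_union_le _ _
          _ ≤ 0 + volume {x : Fin (p + 1) → ℝ | x i = 0} :=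
              add_le_add hnull.le (Measure.restrict_apply_le _ _)
          _ = 0 := by rw [hpl, add_zero]
      rw [Measure.restrict_apply_univ] at this
      simp [hVdef, Measure.real, this] at hV
    · exact h0
  have h2 : ∀ i, V * (∫ x in A, x i ^ 2) ≤ 2 * (∫ x in A, x i) ^ 2 := by
    intro i
    obtain ⟨R, hg⟩ := hM hA i
    have := second_le hg
    rwa [mU_sect hA i, mM_sect hA i, mS_sect hA i] at this
  refine ⟨hM0, h2, ?_⟩
  set b : Fin (p + 1) → ℝ := fun i => (∫ x in A, x i) / V with hb
  have hb0 : ∀ i, 0 < b i := fun i => div_pos (hM0 i) hV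
  have hclass : ∀ k, ∀ i ∈ later c k, ∫ x in A, x i = V * b k := by
    intro k i hi
    have hi' : ∫ x in A, x i = ∫ x in A, x k :=
      integral_perm h (f := fun y => y) (Finset.mem_filter.1 hi).2.2
    rw [hi', hb]
    field_simp
  have hterm : ∀ k, V * (Real.log (2 * b k) - 144 / (later c k).card - 2 * Real.exp (-6)) ≤
      term A c b k := by
    intro k
    set j : ℝ := ((later c k).card : ℝ) with hj
    have hj0 : 0 < j := Nat.cast_pos.2 (Finset.card_pos.2 ⟨k, self_mem_later c k⟩)
    have hsum : ∫ x in A, ∑ i ∈ later c k, x i = j * (V * b k) := by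
      rw [integral_finsetSum _ fun i _ => hint i, Finset.sum_congr rfl (hclass k), Finset.sum_const,
        nsmul_eq_mul]
    have hS : IntegrableOn (fun x : Fin (p + 1) → ℝ => ∑ i ∈ later c k, x i) A :=
      integrable_finsetSum _ fun i _ => hint i
    have hlin : ∫ x in A, (avg c b k x - 1) = 0 := by
      simp only [avg, ← hj]
      rw [integral_sub (hS.div_const _) (integrableOn_const hA.finite), integral_div, hsum,
        setIntegral_const, smul_eq_mul, ← hVdef]
      have := (hb0 k).ne'
      field_simp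
      ring
    have hvar := hVar hA (later c k) (j * b k) (by rw [hsum]; ring)
    have hsq : ∫ x in A, ∑ i ∈ later c k, x i ^ 2 ≤ j * (2 * V * b k ^ 2) := by
      rw [integral_finsetSum _ fun i _ => hint2 i]
      refine (Finset.sum_le_card_nsmul _ _ (2 * V * b k ^ 2) fun i hi => ?_).trans
        (le_of_eq (nsmul_eq_mul _ _))
      have := h2 i
      rw [hclass k i hi] at this
      refine le_of_mul_le_mul_left (this.trans (le_of_eq ?_)) hV
      ring
    have hquad : ∫ x in A, (avg c b k x - 1) ^ 2 ≤ V * 8 / j := by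
      have e : ∀ x, (avg c b k x - 1) ^ 2 =
          (∑ i ∈ later c k, x i - j * b k) ^ 2 / (j * b k) ^ 2 := by
        intro x
        have := (hb0 k).ne'
        simp only [avg, ← hj]
        field_simp
      simp only [e]
      rw [integral_div, div_le_div_iff₀ (pow_pos (mul_pos hj0 (hb0 k)) 2) hj0]
      calc (∫ x in A, (∑ i ∈ later c k, x i - j * b k) ^ 2) * j
          ≤ 4 * (j * (2 * V * b k ^ 2)) * j := mul_le_mul_of_nonneg_right (by linarith) hj0.le
        _ = V * 8 * (j * b k) ^ 2 := by ring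
    have hface : b k * face A k ≤ V := by
      obtain ⟨R, hg⟩ := hM hA k
      have hf := face_mul hg
      rw [mU_sect hA k, mM_sect hA k] at hf
      rw [hb]
      show (∫ x in A, x k) / V * sectAt A k 0 ≤ V
      rw [div_mul_eq_mul_div, div_le_iff₀ hV]
      rw [← hVdef] at hf
      nlinarith
    simp only [term]
    rw [hlin, ← hVdef]
    have h3 : 2 * Real.exp (-6) * b k * face A k ≤ 2 * Real.exp (-6) * V := by
      rw [mul_assoc (2 * Real.exp (-6))]
      exact mul_le_mul_of_nonneg_left hface (by positivity)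
    have e : V * (144 / j) = 18 * (V * 8 / j) := by ring
    linarith [show V * (Real.log (2 * b k) - 144 / j - 2 * Real.exp (-6)) =
      V * Real.log (2 * b k) - V * (144 / j) - 2 * Real.exp (-6) * V by ring]
  have hbc : ∀ i, 0 < b i := hb0
  have hmain := entropy_bound hM hA c h b hbc
  rw [← hVdef] at hmain
  have hs := Finset.sum_le_sum (s := Finset.univ) fun k _ => hterm k
  rw [← Finset.mul_sum] at hs
  exact le_of_mul_le_mul_left (hs.trans hmain) hV

theorem main_of (hM : HasMarg) (hVar : HasVar) {n : ℕ} {κ : Type*} [DecidableEq κ]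
    (c : Fin n → κ) (hn : 0 < n)
    (hc : ∀ i, 100000 ≤ (Finset.univ.filter fun j => c j = c i).card)
    {K : Set (Fin n → ℝ)} (hK : Convex ℝ K) (hco : IsCompact K) (hi : (interior K).Nonempty)
    (hs : SignInvariant K) (hperm : Invariant c K) :
    isoConst K < isoConst (cornerSimplex n) := by
  have hbig : 100000 ≤ n := (hc ⟨0, hn⟩).trans (by simpa using Finset.card_filter_le Finset.univ fun j => c j = c ⟨0, hn⟩)
  obtain ⟨m, rfl⟩ : ∃ m, n = m + 2 := ⟨n - 2, by omega⟩
  have hA := pos_down hK hco hs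
  have hV := volume_pos hK hco hs hi
  have hinv : Invariant c (pos K) := fun σ hσ x hx => ⟨hperm σ hσ x hx.1, fun i => hx.2 _⟩
  obtain ⟨hM0, h2, hlog⟩ := log_volume_bound hM hVar hA hinv hV
  obtain ⟨hvol, hcov⟩ := cov_eq hK hco hs hV
  rw [Orlicz.isoConst_simplex, isoConst, hcov, Matrix.det_diagonal, hvol]
  set A := pos K with hAdef
  set V := volume.real A with hVdef
  have hW : ∀ i, 0 < ∫ y in A, y i ^ 2 := by
    clear hbig hc
    intro i
    have hx2 : IntegrableOn (fun x : Fin (m + 2) → ℝ => x i ^ 2) A :=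
      ((continuous_apply i).pow 2).continuousOn.integrableOn_compact hA.compact
    have hx1 : IntegrableOn (fun x : Fin (m + 2) → ℝ => x i) A :=
      (continuous_apply i).continuousOn.integrableOn_compact hA.compact
    set l := (∫ x in A, x i) / V with hl
    have hl0 : 0 < l := div_pos (hM0 i) hV
    have h := setIntegral_mono_on ((hx1.const_mul (2 * l)).sub (integrableOn_const (C := l ^ 2)
      hA.finite)) hx2 hA.measurable fun x _ => by
        simp only [Pi.sub_apply]; nlinarith [sq_nonneg (x i - l)]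
    have hi1 : Integrable (fun x : Fin (m + 2) → ℝ => 2 * l * x i) (volume.restrict A) := hx1.const_mul _
    simp only [Pi.sub_apply] at h
    rw [integral_sub hi1 (integrableOn_const hA.finite), integral_const_mul, setIntegral_const,
      smul_eq_mul, show (∫ x in A, x i) = l * V by rw [hl]; field_simp] at h
    nlinarith [mul_pos (mul_pos hl0 hl0) hV]
  refine Real.rpow_lt_rpow (div_nonneg (Finset.prod_nonneg fun i _ => div_nonneg (hW i).le hV.le)
    (sq_nonneg _)) ?_ (by positivity)
  have hlhs : 0 < (∏ i, (∫ y in A, y i ^ 2) / V) / (2 ^ (m + 2) * V) ^ 2 :=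
    div_pos (Finset.prod_pos fun i _ => div_pos (hW i) hV) (by positivity)
  have hr : (((m + 2).factorial : ℝ) ^ 2 / (((((m + 2 : ℕ)):ℝ) + 1) ^ ((m + 2) + 1) * ((((m + 2 : ℕ)):ℝ) + 2) ^ (m + 2))) =
      (((m + 2).factorial : ℝ) ^ 2 / (((m:ℝ) + 3) ^ (m + 3) * ((m:ℝ) + 4) ^ (m + 2))) := by
    have e1 : ((((m + 2 : ℕ)):ℝ) + 1) = (m:ℝ) + 3 := by push_cast; ring
    have e2 : ((((m + 2 : ℕ)):ℝ) + 2) = (m:ℝ) + 4 := by push_cast; ring
    rw [e1, e2]
  rw [← hr]
  refine (Real.log_lt_log_iff hlhs (by positivity)).1 ?_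
  refine lt_of_le_of_lt ?_ (simplex_log hbig)
  rw [Real.log_div (Finset.prod_pos fun i _ => div_pos (hW i) hV).ne' (by positivity),
    Real.log_prod fun i _ => (div_pos (hW i) hV).ne', Real.log_pow, Real.log_mul (by positivity) hV.ne',
    Real.log_pow]
  have hi2 : ∀ i, Real.log ((∫ y in A, y i ^ 2) / V) ≤
      Real.log 2 + 2 * Real.log ((∫ x in A, x i) / V) := by
    clear hbig hc
    intro i
    have hq : (∫ y in A, y i ^ 2) / V ≤ 2 * ((∫ x in A, x i) / V) ^ 2 := by
      rw [div_pow, ← mul_div_assoc, div_le_div_iff₀ hV (by positivity)]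
      nlinarith [mul_le_mul_of_nonneg_left (h2 i) hV.le]
    refine (Real.log_le_log (div_pos (hW i) hV) hq).trans (le_of_eq ?_)
    rw [Real.log_mul (by norm_num) (pow_ne_zero _ (div_pos (hM0 i) hV).ne'), Real.log_pow]
    norm_num
  have hsum := Finset.sum_le_sum (s := Finset.univ) fun i _ => hi2 i
  rw [Finset.sum_add_distrib, Finset.sum_const, Finset.card_univ, Fintype.card_fin, nsmul_eq_mul,
    ← Finset.mul_sum] at hsum
  have hl2 : ∀ k, Real.log (2 * ((∫ x in A, x k) / V)) =
      Real.log 2 + Real.log ((∫ x in A, x k) / V) := fun k =>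
    Real.log_mul (by norm_num) (div_pos (hM0 k) hV).ne'
  simp only [hl2, Finset.sum_sub_distrib, Finset.sum_add_distrib, Finset.sum_const, Finset.card_univ,
    Fintype.card_fin, nsmul_eq_mul] at hlog
  have hh : ∑ k, (144:ℝ) / (later c k).card ≤ 144 * (0.000128 * ((m + 2 : ℕ) : ℝ)) := by
    have := sum_inv_later c hc
    calc ∑ k, (144:ℝ) / (later c k).card = 144 * ∑ k, (1:ℝ) / (later c k).card := by
          rw [Finset.mul_sum]; exact Finset.sum_congr rfl fun k _ => by ring
      _ ≤ _ := mul_le_mul_of_nonneg_left this (by norm_num)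
  have he := mul_le_mul_of_nonneg_left exp_neg_six (show (0:ℝ) ≤ 2 * ((m + 2 : ℕ) : ℝ) by positivity)
  clear hbig hc
  push_cast at *
  nlinarith [show (0:ℝ) ≤ (m:ℝ) from Nat.cast_nonneg m]

end Vale.Agent.P254.Sym
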