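import Vale.Agent.P254.Sym.Defs

/-!
Harmonic sums over ranks inside classes and numerical bounds.
-/

open Set

namespace Vale.Agent.P254.Sym

lemma sum_inv_rank {α : Type*} [LinearOrder α] (F : Finset α) :
    ∑ k ∈ F, (1 : ℝ) / (F.filter (fun i => k ≤ i)).card = (harmonic F.card : ℚ) := by
  induction F using Finset.induction_on_min with
  | empty => simp
  | insert a s ha ih =>
    have hna : a ∉ s := fun h => lt_irrefl a (ha a h)
    rw [Finset.sum_insert hna]
    have h1 : (insert a s).filter (fun i => a ≤ i) = insert a s := by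
      refine Finset.filter_true_of_mem fun i hi => ?_
      rcases Finset.mem_insert.1 hi with rfl | h
      · exact le_rfl
      · exact (ha i h).le
    have h2 : ∀ k ∈ s, (1:ℝ) / ((insert a s).filter (fun i => k ≤ i)).card =
        1 / (s.filter (fun i => k ≤ i)).card := by
      intro k hk
      rw [Finset.filter_insert, if_neg (not_le.2 (ha k hk))]
    rw [h1, Finset.sum_congr rfl h2, ih, Finset.card_insert_of_notMem hna, harmonic_succ]
    push_cast
    rw [one_div]
    ring

/-- The harmonic number of a class of size at least `100000`. -/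
lemma harmonic_le {q : ℕ} (hq : 100000 ≤ q) : (harmonic q : ℝ) ≤ 0.000128 * q := by
  have h1 := harmonic_le_one_add_log q
  have hqr : (100000:ℝ) ≤ q := by exact_mod_cast hq
  have h2 : Real.log q ≤ Real.log 100000 + (q / 100000 - 1) := by
    have := Real.log_le_sub_one_of_pos (show (0:ℝ) < q / 100000 by positivity)
    rw [Real.log_div (by positivity) (by norm_num)] at this
    linarith
  have h3 : Real.log 100000 ≤ 17 * 0.6931471808 := by
    have : Real.log 100000 ≤ Real.log ((2:ℝ) ^ 17) :=
      Real.log_le_log (by norm_num) (by norm_num)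
    rw [Real.log_pow] at this
    have h4 := Real.log_two_lt_d9
    push_cast at this
    linarith
  linarith

lemma sum_inv_later {n : ℕ} {κ : Type*} [DecidableEq κ] (c : Fin n → κ)
    (hc : ∀ i, 100000 ≤ (Finset.univ.filter fun j => c j = c i).card) :
    ∑ k : Fin n, (1:ℝ) / (Finset.univ.filter fun i => k ≤ i ∧ c i = c k).card ≤ 0.000128 * n := by
  classical
  rw [← Finset.sum_fiberwise_of_maps_to (g := c) (t := Finset.univ.image c)
    (fun i hi => Finset.mem_image_of_mem c hi)]
  have hn : (n:ℝ) = ∑ a ∈ Finset.univ.image c, ((Finset.univ.filter fun j => c j = a).card : ℝ) := by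
    rw [← Nat.cast_sum, ← Finset.card_eq_sum_card_fiberwise (f := c)
      (fun i hi => Finset.mem_image_of_mem c hi)]
    simp
  rw [hn, Finset.mul_sum]
  refine Finset.sum_le_sum fun a ha => ?_
  obtain ⟨i, -, rfl⟩ := Finset.mem_image.1 ha
  refine le_trans (le_of_eq ?_) (harmonic_le (hc i))
  rw [← sum_inv_rank]
  refine Finset.sum_congr rfl fun k hk => ?_
  have hk' : c k = c i := (Finset.mem_filter.1 hk).2
  congr 2
  rw [Finset.filter_filter]
  congr 1
  ext l
  simp [hk', and_comm]

lemma exp_neg_six : Real.exp (-6) ≤ 0.0025 := by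
  have h := Real.exp_one_gt_d9
  have h6 : Real.exp 6 = Real.exp 1 ^ 6 := by rw [← Real.exp_nat_mul]; norm_num
  rw [Real.exp_neg, h6, inv_le_iff_one_le_mul₀ (by positivity)]
  have : (2.718:ℝ) ^ 6 ≤ Real.exp 1 ^ 6 := pow_le_pow_left₀ (by norm_num) (by linarith) 6
  nlinarith

/-- The comparison with the simplex value, in logarithms. -/
lemma simplex_log {n : ℕ} (hn : 100000 ≤ n) :
    -(n:ℝ) * (3 * Real.log 2) + 0.05 * n <
      Real.log ((n.factorial : ℝ) ^ 2 / (((n:ℝ) + 1) ^ (n + 1) * ((n:ℝ) + 2) ^ n)) := by
  have hnr : (100000:ℝ) ≤ n := by exact_mod_cast hn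
  have hn0 : (0:ℝ) < n := by linarith
  have hf : (0:ℝ) < n.factorial := by exact_mod_cast n.factorial_pos
  have hs : (n:ℝ) * Real.log n - n ≤ Real.log n.factorial := by
    have h := Real.pow_div_factorial_le_exp (n:ℝ) hn0.le n
    have h' := Real.log_le_log (by positivity) h
    rw [Real.log_div (by positivity) hf.ne', Real.log_pow, Real.log_exp] at h'
    linarith
  have ha : ∀ a : ℝ, 0 ≤ a → (n:ℝ) * Real.log ((n:ℝ) + a) ≤ n * Real.log n + a := by
    intro a ha0
    have := Real.log_le_sub_one_of_pos (show (0:ℝ) < ((n:ℝ) + a) / n by positivity)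
    rw [Real.log_div (by positivity) hn0.ne'] at this
    have h2 := mul_le_mul_of_nonneg_left this hn0.le
    have e : (n:ℝ) * (((n:ℝ) + a) / n - 1) = a := by field_simp; ring
    rw [e, mul_sub] at h2
    linarith
  have h1 := ha 1 zero_le_one
  have h2 := ha 2 zero_le_two
  have h3 : Real.log ((n:ℝ) + 1) ≤ 0.0002 * n := by
    have h := Real.log_le_sub_one_of_pos (show (0:ℝ) < ((n:ℝ) + 1) / 100000 by positivity)
    rw [Real.log_div (by positivity) (by norm_num)] at h
    have h4 : Real.log 100000 ≤ 17 * 0.6931471808 := by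
      have : Real.log 100000 ≤ Real.log ((2:ℝ) ^ 17) := Real.log_le_log (by norm_num) (by norm_num)
      rw [Real.log_pow] at this
      have h5 := Real.log_two_lt_d9
      push_cast at this
      linarith
    linarith
  rw [Real.log_div (by positivity) (by positivity), Real.log_mul (by positivity) (by positivity),
    Real.log_pow, Real.log_pow, Real.log_pow]
  push_cast
  have hl2 := Real.log_two_gt_d9
  nlinarith [mul_le_mul_of_nonneg_left hl2.le hn0.le]

end Vale.Agent.P254.Sym
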