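import Vale.Agent.P254.Sym.Entropy
import Vale.Agent.P254.Sym.Harmonic
import Vale.Agent.P254.Orlicz.Symm

/-!
From an unconditional convex body to its positive part.
-/

open MeasureTheory Set
open scoped ENNReal

namespace Vale.Agent.P254.Sym

variable {n : ℕ}

/-- Invariance under every change of sign of one coordinate. -/
def SignInvariant (K : Set (Fin n → ℝ)) : Prop :=
  ∀ i, ∀ x ∈ K, Function.update x i (-x i) ∈ K

/-- The positive part. -/
def pos (K : Set (Fin n → ℝ)) : Set (Fin n → ℝ) := {x | x ∈ K ∧ ∀ i, 0 ≤ x i}

lemma scale_mem {K : Set (Fin n → ℝ)} (hK : Convex ℝ K) (hs : SignInvariant K) {x : Fin n → ℝ}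
    (hx : x ∈ K) {y : Fin n → ℝ} (hy : ∀ i, |y i| ≤ |x i|) : y ∈ K := by
  have key : ∀ s : Finset (Fin n), (fun i => if i ∈ s then y i else x i) ∈ K := by
    intro s
    induction s using Finset.induction_on with
    | empty => simpa using hx
    | insert a s ha ih =>
      set z : Fin n → ℝ := fun i => if i ∈ s then y i else x i with hz
      have hza : z a = x a := by simp [hz, ha]
      rcases eq_or_ne (x a) 0 with h0 | h0
      · have hya : y a = 0 := by simpa [h0] using hy a
        have : (fun i => if i ∈ insert a s then y i else x i) = z := by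
          funext i
          rcases eq_or_ne i a with rfl | hi
          · simp [hz, ha, hya, h0]
          · simp [hz, hi]
        rw [this]; exact ih
      · set l := y a / x a with hl
        have hl1 : |l| ≤ 1 := by rw [hl, abs_div, div_le_one (abs_pos.2 h0)]; exact hy a
        obtain ⟨hla, hlb⟩ := abs_le.1 hl1
        have hmem := hK ih (hs a z ih) (show 0 ≤ (1 + l) / 2 by linarith)
          (show 0 ≤ (1 - l) / 2 by linarith) (by ring)
        convert hmem using 1
        funext i
        rcases eq_or_ne i a with rfl | hi
        · simp only [Finset.mem_insert_self, if_true, Pi.add_apply, Pi.smul_apply, smul_eq_mul,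
            Function.update_self, hza]
          rw [hl]
          field_simp
          ring
        · simp only [Pi.add_apply, Pi.smul_apply, smul_eq_mul, Function.update_of_ne hi,
            Finset.mem_insert, hi, false_or]
          show _ = _ * z i + _ * z i
          ring
  simpa using key Finset.univ

lemma mem_iff_abs {K : Set (Fin n → ℝ)} (hK : Convex ℝ K) (hs : SignInvariant K) (x : Fin n → ℝ) :
    x ∈ K ↔ (fun i => |x i|) ∈ pos K :=
  ⟨fun h => ⟨scale_mem hK hs h fun i => by simp, fun i => abs_nonneg _⟩,
    fun h => scale_mem hK hs h.1 fun i => by simp⟩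

lemma pos_down {K : Set (Fin n → ℝ)} (hK : Convex ℝ K) (hc : IsCompact K)
    (hs : SignInvariant K) : Down (pos K) := by
  refine ⟨?_, ?_, fun x hx i => hx.2 i, fun x hx y hy => ⟨scale_mem hK hs hx.1 fun i => ?_,
    fun i => (hy i).1⟩⟩
  · refine hc.of_isClosed_subset ?_ fun x hx => hx.1
    have : pos K = K ∩ ⋂ i, {x | 0 ≤ x i} := by ext x; simp [pos]
    rw [this]
    exact hc.isClosed.inter (isClosed_iInter fun i => isClosed_le continuous_const (continuous_apply i))
  · intro x hx y hy a b ha hb hab
    exact ⟨hK hx.1 hy.1 ha hb hab, fun i =>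
      add_nonneg (mul_nonneg ha (hx.2 i)) (mul_nonneg hb (hy.2 i))⟩
  · rw [abs_of_nonneg (hy i).1, abs_of_nonneg (hx.2 i)]
    exact (hy i).2

lemma integral_abs' {K : Set (Fin n → ℝ)} (hK : Convex ℝ K) (hc : IsCompact K)
    (hs : SignInvariant K) {F : (Fin n → ℝ) → ℝ} (hF : Continuous F) :
    ∫ y in K, F (fun j => |y j|) = 2 ^ n * ∫ z in pos K, F z := by
  have hm : Measurable fun (y : Fin n → ℝ) j => |y j| :=
    measurable_pi_lambda _ fun j => continuous_abs.measurable.comp (measurable_pi_apply j)
  have hb : MeasurableSet (pos K) := (pos_down hK hc hs).measurable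
  have hpre : (fun (y : Fin n → ℝ) j => |y j|) ⁻¹' pos K = K := by
    ext y; exact (mem_iff_abs hK hs y).symm
  have h := setIntegral_map (μ := (volume : Measure (Fin n → ℝ))) hb
    hF.aestronglyMeasurable hm.aemeasurable (f := F)
  rw [hpre, Orlicz.map_abs_pi, Measure.restrict_smul, integral_smul_measure,
    Measure.restrict_restrict hb] at h
  rw [← h]
  have hsub : pos K ⊆ univ.pi fun _ : Fin n => Ici (0:ℝ) := fun y hy i _ => hy.2 i
  rw [inter_eq_left.2 hsub]
  simp

lemma integral_flip' {K : Set (Fin n → ℝ)} (hs : SignInvariant K) (i : Fin n)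
    (F : (Fin n → ℝ) → ℝ) :
    ∫ y in K, F y = ∫ y in K, F (Function.update y i (-y i)) := by
  let e : (Fin n → ℝ) ≃ᵐ (Fin n → ℝ) := MeasurableEquiv.piCongrRight fun j =>
    if j = i then MeasurableEquiv.neg ℝ else MeasurableEquiv.refl ℝ
  have he : ∀ y, e y = Function.update y i (-y i) := by
    intro y
    funext j
    show (if j = i then MeasurableEquiv.neg ℝ else MeasurableEquiv.refl ℝ) (y j) = _
    rcases eq_or_ne j i with rfl | hj
    · simp
    · simp [hj]
  have hmp : MeasurePreserving e volume volume := by
    refine volume_preserving_pi (fun j => ?_)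
    by_cases hj : j = i
    · simp only [hj, if_true]
      exact Measure.measurePreserving_neg volume
    · simp only [if_neg hj]
      exact MeasurePreserving.id volume
  have hpre : e ⁻¹' K = K := by
    ext y
    simp only [mem_preimage, he]
    refine ⟨fun h => ?_, fun h => hs i y h⟩
    simpa using hs i _ h
  have h := hmp.setIntegral_preimage_emb e.measurableEmbedding F K
  rw [hpre] at h
  rw [← h]
  simp only [he]

theorem cov_eq {K : Set (Fin n → ℝ)} (hK : Convex ℝ K) (hc : IsCompact K)
    (hs : SignInvariant K) (hV : 0 < volume.real (pos K)) :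
    volume.real K = 2 ^ n * volume.real (pos K) ∧
      cov K = Matrix.diagonal fun i => (∫ y in pos K, y i ^ 2) / volume.real (pos K) := by
  have hvol : volume.real K = 2 ^ n * volume.real (pos K) := by
    have h := integral_abs' hK hc hs (F := fun _ => (1:ℝ)) continuous_const
    simpa using h
  have hb : ∀ i, bary K i = 0 := fun i => by
    have h := integral_flip' hs i (fun y => y i)
    simp only [Function.update_self, integral_neg] at h
    have : ∫ y in K, y i = 0 := by linarith
    simp [bary, this]
  refine ⟨hvol, ?_⟩
  ext i j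
  simp only [cov, Matrix.of_apply, hb, sub_zero]
  rcases eq_or_ne i j with h | h
  · subst h
    have h2 := integral_abs' hK hc hs (F := fun z => z i ^ 2) ((continuous_apply i).pow 2)
    simp only [sq_abs] at h2
    rw [Matrix.diagonal_apply_eq, show (fun y : Fin n → ℝ => y i * y i) = fun y => y i ^ 2 from
      funext fun y => (sq (y i)).symm, h2, hvol]
    field_simp
  · have h2 := integral_flip' hs i (fun y => y i * y j)
    simp only [Function.update_self, Function.update_of_ne h.symm, neg_mul, integral_neg] at h2
    have : ∫ y in K, y i * y j = 0 := by linarith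
    rw [Matrix.diagonal_apply_ne _ h, this, mul_zero]

lemma volume_pos {K : Set (Fin n → ℝ)} (hK : Convex ℝ K) (hc : IsCompact K)
    (hs : SignInvariant K) (hi : (interior K).Nonempty) : 0 < volume.real (pos K) := by
  have hKpos : 0 < volume.real K := by
    refine lt_of_lt_of_le ?_ (measureReal_mono interior_subset hc.measure_lt_top.ne)
    exact ENNReal.toReal_pos (isOpen_interior.measure_pos volume hi).ne'
      (ne_top_of_le_ne_top hc.measure_lt_top.ne (measure_mono interior_subset))
  have h := integral_abs' hK hc hs (F := fun _ => (1:ℝ)) continuous_const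
  simp only [setIntegral_const, smul_eq_mul, mul_one] at h
  rw [h] at hKpos
  exact (mul_pos_iff_of_pos_left (by positivity)).1 hKpos

end Vale.Agent.P254.Sym
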