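import Mathlib

/-!
Convex downsets of the orthant and their one-variable section functions.
-/

open MeasureTheory Set

namespace Vale.Agent.P254.Sym

/-- A compact convex downset of the closed positive orthant. -/
structure Down {n : ℕ} (A : Set (Fin n → ℝ)) : Prop where
  compact : IsCompact A
  convex : Convex ℝ A
  nonneg : ∀ x ∈ A, ∀ i, 0 ≤ x i
  lower : ∀ x ∈ A, ∀ y : Fin n → ℝ, (∀ i, 0 ≤ y i ∧ y i ≤ x i) → y ∈ A

/-- Invariance under the coordinate permutations which preserve the colouring `c`. -/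
def Invariant {n : ℕ} {κ : Type*} (c : Fin n → κ) (A : Set (Fin n → ℝ)) : Prop :=
  ∀ σ : Equiv.Perm (Fin n), (∀ i, c (σ i) = c i) → ∀ x ∈ A, (fun i => x (σ i)) ∈ A

/-- The slice of a set at a value of the first coordinate. -/
def slice {n : ℕ} (A : Set (Fin (n + 1) → ℝ)) (t : ℝ) : Set (Fin n → ℝ) :=
  {z | Fin.cons t z ∈ A}

/-- The volume of the slice at height `t`. -/
noncomputable def sect {n : ℕ} (A : Set (Fin (n + 1) → ℝ)) (t : ℝ) : ℝ :=
  volume.real (slice A t)

/-- A nonnegative, nonincreasing, log-concave function on the half-line, supported in `[0, R]`. -/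
structure Marg (g : ℝ → ℝ) (R : ℝ) : Prop where
  nonneg : ∀ t, 0 ≤ g t
  anti : AntitoneOn g (Ici 0)
  beyond : ∀ t, R < t → g t = 0
  prod : ∀ a b c d : ℝ, 0 ≤ a → a ≤ b → a ≤ c → b ≤ d → c ≤ d → b + c = a + d →
    g a * g d ≤ g b * g c
  meas : Measurable g

end Vale.Agent.P254.Sym
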