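import Vale.Agent.P254.Sym.Slice

/-!
The volume of a class-invariant convex downset dominates the box built from its barycentre,
up to the fluctuations of the partial coordinate sums.
-/

open MeasureTheory Set

namespace Vale.Agent.P254.Sym

variable {n : ℕ} {κ : Type*} [DecidableEq κ]

/-- Indices of the class of `k` which come at or after `k`. -/
def later (c : Fin n → κ) (k : Fin n) : Finset (Fin n) :=
  Finset.univ.filter fun i => k ≤ i ∧ c i = c k

lemma self_mem_later (c : Fin n → κ) (k : Fin n) : k ∈ later c k := by simp [later]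

/-- The normalised partial sum `u_k`. -/
noncomputable def avg (c : Fin n → κ) (b : Fin n → ℝ) (k : Fin n) (x : Fin n → ℝ) : ℝ :=
  (∑ i ∈ later c k, x i) / ((later c k).card * b k)

lemma continuous_avg (c : Fin n → κ) (b : Fin n → ℝ) (k : Fin n) : Continuous (avg c b k) :=
  (continuous_finsetSum _ fun i _ => continuous_apply i).div_const _

lemma later_succ (c : Fin (n + 1) → κ) (k : Fin n) :
    later c k.succ = (later (fun j => c j.succ) k).map (Fin.succEmb n) := by
  ext i
  refine Fin.cases ?_ (fun i' => ?_) i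
  · simp [later, Fin.succ_ne_zero]
  · simp [later, Fin.succ_le_succ_iff]

lemma avg_succ (c : Fin (n + 1) → κ) (b : Fin (n + 1) → ℝ) (k : Fin n) (t : ℝ) (z : Fin n → ℝ) :
    avg c b k.succ (Fin.cons t z) = avg (fun j => c j.succ) (fun j => b j.succ) k z := by
  simp [avg, later_succ]

/-- The lower-bound functional of one index. -/
noncomputable def term (A : Set (Fin n → ℝ)) (c : Fin n → κ) (b : Fin n → ℝ) (k : Fin n) : ℝ :=
  volume.real A * Real.log (2 * b k) + (∫ x in A, (avg c b k x - 1))
    - 18 * (∫ x in A, (avg c b k x - 1) ^ 2) - 2 * Real.exp (-6) * b k * face A k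

omit [DecidableEq κ] in
lemma invariant_slice {A : Set (Fin (n + 1) → ℝ)} {c : Fin (n + 1) → κ}
    (h : Invariant c A) (t : ℝ) : Invariant (fun j => c j.succ) (slAt A 0 t) := by
  intro σ hσ z hz
  set τ : Equiv.Perm (Fin (n + 1)) := Equiv.Perm.decomposeFin.symm (0, σ) with hτ
  have h0 : τ 0 = 0 := by simp [hτ]
  have hs : ∀ j : Fin n, τ j.succ = (σ j).succ := fun j => by simp [hτ]
  have hc : ∀ i, c (τ i) = c i := by
    refine Fin.cases ?_ (fun j => ?_)
    · rw [h0]
    · rw [hs]; exact hσ j
  have := h τ hc _ hz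
  show Fin.insertNth 0 t (fun i => z (σ i)) ∈ A
  convert this using 1
  funext i
  refine Fin.cases ?_ (fun j => ?_) i
  · simp [h0]
  · simp [hs, Fin.insertNth_zero']

omit [DecidableEq κ] in
lemma integral_perm {A : Set (Fin n → ℝ)} {c : Fin n → κ} (h : Invariant c A)
    {i j : Fin n} (hij : c i = c j) {f : ℝ → ℝ} :
    ∫ x in A, f (x i) = ∫ x in A, f (x j) := by
  set σ : Equiv.Perm (Fin n) := Equiv.swap i j with hσ
  have hc : ∀ l, c (σ l) = c l := by
    intro l
    rw [hσ, Equiv.swap_apply_def]
    split_ifs with h1 h2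
    · rw [h1, hij]
    · rw [h2, hij]
    · rfl
  let e : (Fin n → ℝ) ≃ᵐ (Fin n → ℝ) := MeasurableEquiv.piCongrLeft (fun _ => ℝ) σ
  have he : ∀ (x : Fin n → ℝ) l, e x (σ l) = x l := fun x l =>
    Equiv.piCongrLeft_apply_apply (fun _ => ℝ) σ x l
  have he' : ∀ x : Fin n → ℝ, e x = fun l => x (σ l) := fun x => funext fun l => by
    conv_lhs => rw [show l = σ (σ l) by simp [hσ]]
    exact he x (σ l)
  have hmp : MeasurePreserving e volume volume :=
    volume_measurePreserving_piCongrLeft (fun _ => ℝ) σ
  have hpre : e ⁻¹' A = A := by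
    ext x
    simp only [mem_preimage, he']
    refine ⟨fun hx => ?_, fun hx => h σ hc x hx⟩
    have := h σ hc _ hx
    simpa [hσ] using this
  have hi := hmp.setIntegral_preimage_emb e.measurableEmbedding (fun x => f (x i)) A
  rw [hpre] at hi
  rw [← hi]
  simp [he', hσ]

lemma mM_first {A : Set (Fin (n + 1) → ℝ)} (hA : Down A) {c : Fin (n + 1) → κ}
    (h : Invariant c A) {b : Fin (n + 1) → ℝ} (hb : 0 < b 0) :
    ∫ x in A, avg c b 0 x = mM (sectAt A 0) / b 0 := by
  have hint : ∀ i ∈ later c 0, IntegrableOn (fun x : Fin (n + 1) → ℝ => x i) A := fun i _ =>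
    (continuous_apply i).continuousOn.integrableOn_compact hA.compact
  simp only [avg]
  rw [integral_div, integral_finsetSum _ hint,
    Finset.sum_congr rfl (fun i hi => integral_perm h (f := fun y => y)
      (Finset.mem_filter.1 hi).2.2), Finset.sum_const, nsmul_eq_mul, mM_sect hA 0]
  have : ((later c (0 : Fin (n + 1))).card : ℝ) ≠ 0 :=
    Nat.cast_ne_zero.2 (Finset.card_ne_zero_of_mem (self_mem_later c 0))
  field_simp

lemma term_nonpos {A : Set (Fin n → ℝ)} (hA : Down A) {c : Fin n → κ} {b : Fin n → ℝ}
    {k : Fin n} (hV : volume.real A = 0) (hb : 0 < b k) : term A c b k ≤ 0 := by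
  have hz : volume.restrict A = 0 :=
    Measure.restrict_eq_zero.2 ((measureReal_eq_zero_iff hA.finite).1 hV)
  simp only [term, hV, hz, integral_zero_measure]
  have := mul_nonneg (mul_nonneg (mul_nonneg (by norm_num : (0:ℝ) ≤ 2) (Real.exp_pos (-6)).le)
    hb.le) (face_nonneg (A := A) k)
  linarith

/-- The bound at the first index. -/
lemma term_zero_le {A : Set (Fin (n + 1) → ℝ)} (hA : Down A) {c : Fin (n + 1) → κ}
    (h : Invariant c A) {b : Fin (n + 1) → ℝ} (hb : 0 < b 0) {R : ℝ}
    (hg : Marg (sectAt A 0) R) : term A c b 0 ≤ ent (sectAt A 0) := by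
  rcases (measureReal_nonneg (μ := volume) (s := A)).eq_or_lt with hV | hV
  · have hU : mU (sectAt A 0) = 0 := by rw [mU_sect hA 0, ← hV]
    rw [show ent (sectAt A 0) = 0 by simp [ent, hU]]
    exact term_nonpos hA hV.symm hb
  set g := sectAt A 0 with hgdef
  have hU : mU g = volume.real A := mU_sect hA 0
  set U := volume.real A with hUd
  set t := mM g / (U * b 0) with ht
  have hi : IntegrableOn (avg c b 0) A :=
    (continuous_avg c b 0).continuousOn.integrableOn_compact hA.compact
  have h1 : ∫ x in A, (avg c b 0 x - 1) = U * (t - 1) := by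
    rw [integral_sub hi (integrableOn_const hA.finite), mM_first hA h hb, setIntegral_const,
      smul_eq_mul, mul_one, ht]
    field_simp
    ring
  have h2 : U * (t - 1) ^ 2 ≤ ∫ x in A, (avg c b 0 x - 1) ^ 2 := by
    have hsq : IntegrableOn (fun x => (avg c b 0 x - 1) ^ 2) A :=
      (((continuous_avg c b 0).sub continuous_const).pow 2).continuousOn.integrableOn_compact
        hA.compact
    have hle := setIntegral_mono_on
      (((hi.sub (integrableOn_const (C := (1:ℝ)) hA.finite)).const_mul (2 * (t - 1))).sub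
        (integrableOn_const (C := (t - 1) ^ 2) hA.finite)) hsq hA.measurable fun x _ => by
          simp only [Pi.sub_apply]
          nlinarith [sq_nonneg (avg c b 0 x - t)]
    simp only [Pi.sub_apply] at hle
    have hi1 : Integrable (fun x => 2 * (t - 1) * (avg c b 0 x - 1)) (volume.restrict A) :=
      (hi.sub (integrableOn_const (C := (1:ℝ)) hA.finite)).const_mul _
    rw [integral_sub hi1 (integrableOn_const hA.finite), integral_const_mul, h1, setIntegral_const,
      smul_eq_mul] at hle
    nlinarith
  simp only [term]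
  rw [h1]
  have hface : face A 0 = g 0 := rfl
  rw [hface]
  have hg0 : 0 ≤ g 0 := hg.nonneg 0
  have hE : 0 ≤ 2 * Real.exp (-6) * b 0 * g 0 :=
    mul_nonneg (mul_nonneg (mul_nonneg (by norm_num) (Real.exp_pos _).le) hb.le) hg0
  rcases lt_or_ge t (1 / 2) with hlt | hge
  · have he := ent_face hg (by rw [hU]; exact hV) (show 0 < 2 * b 0 * Real.exp (-6) by positivity)
    rw [hU, Real.log_mul (by positivity) (Real.exp_pos _).ne', Real.log_exp] at he
    nlinarith [mul_nonneg hV.le (show 0 ≤ -(t - 1) + 18 * (t - 1) ^ 2 - 5 by nlinarith)]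
  · have hM : 0 < mM g := by
      by_contra hc
      have : t ≤ 0 := div_nonpos_of_nonpos_of_nonneg (not_lt.1 hc) (by positivity)
      linarith
    have he := ent_mean hg (by rw [hU]; exact hV) hM
    have e : 2 * mM g / mU g = 2 * b 0 * t := by rw [hU, ht]; field_simp
    rw [e, hU, Real.log_mul (by positivity) (by linarith)] at he
    have hl := Real.one_sub_inv_le_log_of_pos (show 0 < t by linarith)
    have hk : t - 1 - 18 * (t - 1) ^ 2 ≤ 1 - t⁻¹ := by
      rw [inv_eq_one_div, le_sub_iff_add_le, ← le_sub_iff_add_le', div_le_iff₀ (by linarith)]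
      nlinarith [mul_nonneg (sq_nonneg (t - 1)) (show 0 ≤ 18 * t - 1 by linarith)]
    nlinarith [mul_le_mul_of_nonneg_left (hk.trans hl) hV.le]

/-- Existence of a `Marg` structure for every section function. -/
def HasMarg : Prop :=
  ∀ {n : ℕ} {A : Set (Fin (n + 1) → ℝ)}, Down A → ∀ i, ∃ R, Marg (sectAt A i) R

lemma term_succ {A : Set (Fin (n + 1) → ℝ)} (hA : Down A) (c : Fin (n + 1) → κ)
    (b : Fin (n + 1) → ℝ) (k : Fin n) :
    IntegrableOn (fun t => term (slAt A 0 t) (fun j => c j.succ) (fun j => b j.succ) k) (Ioi 0) ∧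
      term A c b k.succ =
        ∫ t in Ioi (0:ℝ), term (slAt A 0 t) (fun j => c j.succ) (fun j => b j.succ) k := by
  have hv := slice_integral hA 0 (F := fun _ => (1:ℝ)) continuous_const
  simp only [setIntegral_const, smul_eq_mul, mul_one] at hv
  have hu := slice_integral hA 0 (F := fun x => avg c b k.succ x - 1)
    ((continuous_avg c b k.succ).sub continuous_const)
  have hs := slice_integral hA 0 (F := fun x => (avg c b k.succ x - 1) ^ 2)
    (((continuous_avg c b k.succ).sub continuous_const).pow 2)
  simp only [Fin.insertNth_zero', avg_succ] at hu hs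
  obtain ⟨hf1, hf2⟩ := face_succ hA k
  have i1 : Integrable (fun t => volume.real (slAt A 0 t) * Real.log (2 * b k.succ))
      (volume.restrict (Ioi 0)) := hv.1.mul_const _
  have i2 : Integrable (fun t => volume.real (slAt A 0 t) * Real.log (2 * b k.succ) +
      ∫ z in slAt A 0 t, (avg (fun j => c j.succ) (fun j => b j.succ) k z - 1))
      (volume.restrict (Ioi 0)) := i1.add hu.1
  have i3 : Integrable (fun t => volume.real (slAt A 0 t) * Real.log (2 * b k.succ) +
      (∫ z in slAt A 0 t, (avg (fun j => c j.succ) (fun j => b j.succ) k z - 1)) -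
      18 * ∫ z in slAt A 0 t, (avg (fun j => c j.succ) (fun j => b j.succ) k z - 1) ^ 2)
      (volume.restrict (Ioi 0)) := i2.sub (hs.1.const_mul 18)
  have i4 := i3.sub (hf1.const_mul (2 * Real.exp (-6) * b k.succ))
  refine ⟨i4, ?_⟩
  simp only [term]
  rw [integral_sub i3 (hf1.const_mul _), integral_sub i2 (hs.1.const_mul _),
    integral_add i1 hu.1, integral_mul_const, integral_const_mul, integral_const_mul,
    ← hv.2, ← hu.2, ← hs.2, ← hf2]

/-- The entropy recursion. -/
theorem entropy_bound (hM : HasMarg) : ∀ {n : ℕ} {A : Set (Fin n → ℝ)}, Down A →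
    ∀ (c : Fin n → κ), Invariant c A → ∀ b : Fin n → ℝ, (∀ i, 0 < b i) →
      ∑ k, term A c b k ≤ volume.real A * Real.log (volume.real A) := by
  intro n
  induction n with
  | zero =>
    intro A _ c _ b _
    rcases A.eq_empty_or_nonempty with rfl | ⟨x, hx⟩
    · simp
    · have : A = univ := eq_univ_of_forall fun y => Subsingleton.elim x y ▸ hx
      simp [this, Measure.real, volume_pi]
  | succ n ih =>
    intro A hA c h b hb
    obtain ⟨R, hg⟩ := hM hA 0
    set g := sectAt A 0 with hgdef
    have hU : mU g = volume.real A := mU_sect hA 0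
    set V := volume.real A with hV
    have hrec : ∀ t, ∑ k, term (slAt A 0 t) (fun j => c j.succ) (fun j => b j.succ) k ≤
        g t * Real.log (g t) := fun t =>
      ih (slAt_down hA 0 t) _ (invariant_slice h t) _ fun j => hb j.succ
    rcases (measureReal_nonneg (μ := volume) (s := A)).eq_or_lt with hz | hV0
    · rw [← hV] at hz
      rw [← hz, zero_mul]
      exact Finset.sum_nonpos fun k _ => term_nonpos hA (by rw [← hV]; exact hz.symm) (hb k)
    have hsplit : ∀ t, g t * Real.log (g t) =
        g t * Real.log V - -(g t * Real.log (g t / mU g)) := by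
      intro t
      rcases (hg.nonneg t).eq_or_lt with h0 | h0
      · simp [← h0]
      · rw [hU, Real.log_div h0.ne' hV0.ne']
        ring
    have i1 : IntegrableOn (fun t => g t * Real.log V) (Ioi 0) := (integrable_marg hg).mul_const _
    have i2 := integrable_ent hg
    have hsum : IntegrableOn (fun t => g t * Real.log (g t)) (Ioi 0) := by
      simp only [hsplit]
      exact i1.sub i2
    have hle : ∑ k : Fin n, term A c b k.succ ≤ V * Real.log V - ent g := by
      rw [Finset.sum_congr rfl fun k _ => (term_succ hA c b k).2,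
        ← integral_finsetSum _ fun k _ => (term_succ hA c b k).1]
      refine (setIntegral_mono_on (integrable_finsetSum _ fun k _ => (term_succ hA c b k).1) hsum
        measurableSet_Ioi fun t _ => hrec t).trans (le_of_eq ?_)
      simp only [hsplit]
      rw [integral_sub i1 i2, integral_mul_const]
      change mU g * Real.log V - ent g = _
      rw [hU]
    rw [Fin.sum_univ_succ]
    have h0 := term_zero_le hA h (hb 0) hg
    linarith

end Vale.Agent.P254.Sym
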