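import Mathlib
import Vale.Agent.P254.Sym.Defs
import Vale.Agent.P254.Sym.PL

/-!
Log-concavity of the slice volumes of a convex downset, and a variance bound for the sums of
coordinates: `Var (∑ x_i) ≤ 4 E ∑ x_i ^ 2`.
-/

open MeasureTheory Set
open scoped ENNReal

namespace Vale.Agent.P254.Sym

lemma isCompact_slice {n : ℕ} {A : Set (Fin (n + 1) → ℝ)} (hA : IsCompact A) (t : ℝ) :
    IsCompact (slice A t) := by
  have hc : Continuous fun z : Fin n → ℝ => (Fin.cons t z : Fin (n + 1) → ℝ) :=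
    continuous_const.finCons continuous_id
  have ht : Continuous fun z : Fin (n + 1) → ℝ => (fun i => z (Fin.succ i) : Fin n → ℝ) :=
    continuous_pi fun i => continuous_apply _
  refine (hA.image ht).of_isClosed_subset (hA.isClosed.preimage hc) ?_
  intro z hz
  exact ⟨_, hz, funext fun i => Fin.cons_succ _ _ _⟩

/-- The slice volumes of a convex downset are log-concave. -/
theorem down_logconcave {n : ℕ} {A : Set (Fin (n + 1) → ℝ)} (hA : Down A) :
    ∀ s t l : ℝ, 0 ≤ l → l ≤ 1 → 0 ≤ s → 0 ≤ t →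
      sect A s ^ (1 - l) * sect A t ^ l ≤ sect A ((1 - l) * s + l * t) := by
  intro s t l hl0 hl1 _ _
  rcases eq_or_lt_of_le hl0 with rfl | hl0
  · simp
  rcases eq_or_lt_of_le hl1 with rfl | hl1
  · simp
  set r := (1 - l) * s + l * t
  have hc : ∀ u, MeasurableSet (slice A u) := fun u => (isCompact_slice hA.compact u).measurableSet
  have hfin : ∀ u, volume (slice A u) ≠ ∞ := fun u =>
    (isCompact_slice hA.compact u).measure_lt_top.ne
  have key := pl_vol (a := 1 - l) (b := l) (by linarith) hl0 (by ring) n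
    (f := (slice A s).indicator 1) (g := (slice A t).indicator 1) (h := (slice A r).indicator 1)
    (measurable_one.indicator (hc s)) (measurable_one.indicator (hc t))
    (measurable_one.indicator (hc r)) ?_
  · simp only [lintegral_indicator_one (hc _)] at key
    have k2 := ENNReal.toReal_mono (hfin r) key
    rwa [ENNReal.toReal_mul, ← ENNReal.toReal_rpow, ← ENNReal.toReal_rpow] at k2
  intro x y
  by_cases hx : x ∈ slice A s
  swap
  · simp [hx, ENNReal.zero_rpow_of_pos (show 0 < 1 - l by linarith)]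
  by_cases hy : y ∈ slice A t
  swap
  · simp [hy, ENNReal.zero_rpow_of_pos hl0]
  have hm : (1 - l) • x + l • y ∈ slice A r := by
    have := hA.convex hx hy (show 0 ≤ 1 - l by linarith) hl0.le (by ring)
    show Fin.cons r ((1 - l) • x + l • y) ∈ A
    convert this using 1
    funext i
    refine Fin.cases ?_ (fun j => ?_) i <;> simp [r]
  simp [hx, hy, hm]

lemma gwt_le_exp {s t : ℝ} (hs : 0 < s) (ht : 0 < t) (e : ℝ) :
    gwt s t * Real.exp (e * (s - t)) ≤ Real.exp (4 * e ^ 2 * rmean s t ^ 2) ∧ gwt s t ≤ 1 := by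
  obtain ⟨p, hp, rfl⟩ : ∃ p, 0 < p ∧ s = p ^ 2 :=
    ⟨Real.sqrt s, Real.sqrt_pos.2 hs, (Real.sq_sqrt hs.le).symm⟩
  obtain ⟨q, hq, rfl⟩ : ∃ q, 0 < q ∧ t = q ^ 2 :=
    ⟨Real.sqrt t, Real.sqrt_pos.2 ht, (Real.sq_sqrt ht.le).symm⟩
  simp only [gwt, rmean, Real.sqrt_sq hp.le, Real.sqrt_sq hq.le]
  set u := ((p + q) / 2) ^ 2 with hu
  set d := (p - q) / (p + q) with hd
  have hpq : p + q ≠ 0 := by positivity
  have hw : p * q / u = 1 - d ^ 2 := by
    rw [hu, hd]; field_simp; ring
  have hst : p ^ 2 - q ^ 2 = 4 * u * d := by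
    rw [hu, hd]; field_simp
    ring
  refine ⟨?_, by rw [hw]; nlinarith [sq_nonneg d]⟩
  rw [hw, hst]
  calc (1 - d ^ 2) * Real.exp (e * (4 * u * d))
      ≤ Real.exp (-d ^ 2) * Real.exp (e * (4 * u * d)) := by
        gcongr
        linarith [Real.add_one_le_exp (-d ^ 2)]
    _ = Real.exp (-d ^ 2 + e * (4 * u * d)) := (Real.exp_add _ _).symm
    _ ≤ _ := Real.exp_le_exp.2 (by nlinarith [sq_nonneg (d - 2 * e * u)])

lemma ae_pos {n : ℕ} {A : Set (Fin n → ℝ)} (hA : Down A) :
    A =ᵐ[volume] (A ∩ univ.pi fun _ => Ioi (0 : ℝ) : Set (Fin n → ℝ)) := by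
  have h0 : ∀ i : Fin n, ∀ᵐ x : Fin n → ℝ, x i ≠ 0 := fun i => by
    rw [volume_pi]
    exact Measure.ae_eval_ne _ _ _
  filter_upwards [ae_all_iff.2 h0] with x hx
  refine propext ⟨fun h => ⟨h, fun i _ => lt_of_le_of_ne (hA.nonneg x h i) (hx i).symm⟩, fun h => h.1⟩

/-- The exponential moment inequality behind the variance bound. -/
lemma exp_moment {n : ℕ} {A : Set (Fin n → ℝ)} (hA : Down A) (I : Finset (Fin n)) (m e : ℝ) :
    (∫ x in A, Real.exp (e * (∑ i ∈ I, x i - m))) *
      (∫ x in A, Real.exp (-e * (∑ i ∈ I, x i - m))) ≤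
      (∫ x in A, Real.exp (2 * e ^ 2 * ∑ i ∈ I, x i ^ 2)) ^ 2 := by
  set P : Set (Fin n → ℝ) := univ.pi fun _ => Ioi (0 : ℝ)
  have hAm := hA.compact.measurableSet
  set F : (Fin n → ℝ) → ℝ := fun x => Real.exp (e * (∑ i ∈ I, x i - m))
  set G : (Fin n → ℝ) → ℝ := fun x => Real.exp (-e * (∑ i ∈ I, x i - m))
  set H : (Fin n → ℝ) → ℝ := fun x => Real.exp (2 * e ^ 2 * ∑ i ∈ I, x i ^ 2)
  have hF : Continuous F := by fun_prop
  have hG : Continuous G := by fun_prop
  have hH : Continuous H := by fun_prop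
  set L : ((Fin n → ℝ) → ℝ) → (Fin n → ℝ) → ℝ≥0∞ :=
    fun u => A.indicator fun x => ENNReal.ofReal (u x)
  have hL : ∀ u : (Fin n → ℝ) → ℝ, Continuous u → (∀ x, 0 ≤ u x) →
      ∫⁻ x, L u x ∂orth n = ENNReal.ofReal (∫ x in A, u x) := by
    intro u hu hu0
    rw [orth_eq, lintegral_indicator hAm, Measure.restrict_restrict hAm,
      ← setLIntegral_congr (ae_pos hA), ofReal_integral_eq_lintegral_ofReal
        (hu.continuousOn.integrableOn_compact hA.compact) (Filter.Eventually.of_forall hu0)]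
  have key := pl_orth n (f := L F) (g := L G) (h := L H)
    (hF.measurable.ennreal_ofReal.indicator hAm) (hG.measurable.ennreal_ofReal.indicator hAm)
    (hH.measurable.ennreal_ofReal.indicator hAm) ?_
  · rw [hL F hF fun x => (Real.exp_pos _).le, hL G hG fun x => (Real.exp_pos _).le,
      hL H hH fun x => (Real.exp_pos _).le,
      ← ENNReal.ofReal_mul (setIntegral_nonneg hAm fun x _ => (Real.exp_pos _).le),
      ← ENNReal.ofReal_pow (setIntegral_nonneg hAm fun x _ => (Real.exp_pos _).le)] at key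
    exact (ENNReal.ofReal_le_ofReal_iff (sq_nonneg _)).1 key
  intro x y hx hy
  by_cases hxA : x ∈ A
  swap
  · simp [L, hxA]
  by_cases hyA : y ∈ A
  swap
  · simp [L, hyA]
  set u : Fin n → ℝ := fun i => rmean (x i) (y i)
  have huA : u ∈ A := by
    refine hA.lower _ (hA.convex hxA hyA (a := 1 / 2) (b := 1 / 2) (by norm_num) (by norm_num)
      (by norm_num)) u fun i => ?_
    simp only [u, rmean, Pi.add_apply, Pi.smul_apply, smul_eq_mul]
    refine ⟨sq_nonneg _, ?_⟩
    nlinarith [Real.sq_sqrt (hx i).le, Real.sq_sqrt (hy i).le,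
      sq_nonneg (Real.sqrt (x i) - Real.sqrt (y i))]
  have hw : (∏ i, gwt (x i) (y i)) * (F x * G y) ≤ H u ^ 2 := by
    calc (∏ i, gwt (x i) (y i)) * (F x * G y)
        ≤ (∏ i ∈ I, gwt (x i) (y i)) * (F x * G y) := by
          refine mul_le_mul_of_nonneg_right ?_ (by positivity)
          rw [← Finset.prod_sdiff (Finset.subset_univ I)]
          exact mul_le_of_le_one_left (Finset.prod_nonneg fun i _ => gwt_nonneg _ _)
            (Finset.prod_le_one (fun i _ => gwt_nonneg _ _)
              fun i _ => (gwt_le_exp (hx i) (hy i) e).2)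
      _ = ∏ i ∈ I, gwt (x i) (y i) * Real.exp (e * (x i - y i)) := by
          rw [Finset.prod_mul_distrib, ← Real.exp_sum, ← Real.exp_add, ← Finset.mul_sum,
            Finset.sum_sub_distrib]
          congr 2
          ring
      _ ≤ ∏ i ∈ I, Real.exp (4 * e ^ 2 * u i ^ 2) :=
          Finset.prod_le_prod (fun i _ => mul_nonneg (gwt_nonneg _ _) (Real.exp_pos _).le)
            fun i _ => (gwt_le_exp (hx i) (hy i) e).1
      _ = H u ^ 2 := by
          rw [← Real.exp_sum, ← Finset.mul_sum]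
          simp only [H, sq, ← Real.exp_add]
          congr 1
          ring
  simp only [L, indicator_of_mem hxA, indicator_of_mem hyA, indicator_of_mem huA]
  rw [← ENNReal.ofReal_mul (Real.exp_pos _).le,
    ← ENNReal.ofReal_mul (Finset.prod_nonneg fun i _ => gwt_nonneg _ _),
    ← ENNReal.ofReal_pow (Real.exp_pos _).le]
  exact ENNReal.ofReal_le_ofReal hw

lemma exp_lower {z : ℝ} (h : |z| ≤ 1) : 1 + z + z ^ 2 / 2 - |z| ^ 3 ≤ Real.exp z := by
  have := (abs_le.1 (Real.exp_bound h (n := 3) (by norm_num))).1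
  norm_num [Finset.sum_range_succ, Nat.factorial] at this
  nlinarith [pow_nonneg (abs_nonneg z) 3]

lemma exp_upper {z : ℝ} (h : |z| ≤ 1) : Real.exp z ≤ 1 + z + z ^ 2 := by
  linarith [(abs_le.1 (Real.abs_exp_sub_one_sub_id_le h)).2]

/-- The variance of a sum of coordinates is at most four times the sum of the second moments. -/
theorem var_le {n : ℕ} {A : Set (Fin n → ℝ)} (hA : Down A) (I : Finset (Fin n)) (m : ℝ)
    (hm : m * volume.real A = ∫ x in A, ∑ i ∈ I, x i) :
    ∫ x in A, (∑ i ∈ I, x i - m) ^ 2 ≤ 4 * ∫ x in A, ∑ i ∈ I, x i ^ 2 := by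
  set S : (Fin n → ℝ) → ℝ := fun x => ∑ i ∈ I, x i - m
  set W : (Fin n → ℝ) → ℝ := fun x => ∑ i ∈ I, x i ^ 2
  have hSc : Continuous S := by fun_prop
  have hWc : Continuous W := by fun_prop
  have hAm := hA.compact.measurableSet
  have hint : ∀ u : (Fin n → ℝ) → ℝ, Continuous u → IntegrableOn u A := fun u hu =>
    hu.continuousOn.integrableOn_compact hA.compact
  obtain ⟨B, hB⟩ := hA.compact.exists_bound_of_continuousOn (hSc.prodMk hWc).continuousOn
  set V := volume.real A
  set q := ∫ x in A, S x ^ 2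
  set p := ∫ x in A, W x
  have hs0 : ∫ x in A, S x = 0 := by
    rw [integral_sub (hint _ (by fun_prop)) (hint _ continuous_const), setIntegral_const,
      smul_eq_mul, ← hm]
    ring
  set B' := |B| + 1 with hB'def
  have hB0 : 0 < B' := by positivity
  have hbd : ∀ x ∈ A, |S x| ≤ B' ∧ |W x| ≤ B' := fun x hx => by
    have h := norm_prod_le_iff.1 (hB x hx)
    simp only [Real.norm_eq_abs] at h
    constructor <;> linarith [le_abs_self B, h.1, h.2]
  set C := 2 * B' ^ 3 * V + 8 * B' ^ 2 * V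
  have key : ∀ e : ℝ, 0 < e → e ≤ 1 → 2 * e * B' ≤ 1 → q ≤ 4 * p + C * e := by
    intro e he he1 heB
    set L := V + e ^ 2 * q / 2 - e ^ 3 * B' ^ 3 * V
    set R := V + 2 * e ^ 2 * p + 4 * e ^ 4 * B' ^ 2 * V
    have hlow : ∀ c : ℝ, |c| = e → L ≤ ∫ x in A, Real.exp (c * S x) := by
      intro c hc
      have e1 : ∫ x in A, (1 + c * S x + c ^ 2 / 2 * S x ^ 2 - e ^ 3 * B' ^ 3) = L := by
        rw [integral_sub (hint _ (by fun_prop)) (hint _ continuous_const),
          integral_add (hint _ (by fun_prop)) (hint _ (by fun_prop)),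
          integral_add (hint _ continuous_const) (hint _ (by fun_prop)),
          integral_const_mul, integral_const_mul, hs0, setIntegral_const, setIntegral_const,
          smul_eq_mul, smul_eq_mul, ← sq_abs c, hc]
        simp only [L, V, q]
        ring
      rw [← e1]
      refine setIntegral_mono_on (hint _ (by fun_prop)) (hint _ (by fun_prop)) hAm fun x hx => ?_
      have hz : |c * S x| ≤ e * B' := by
        rw [abs_mul, hc]; exact mul_le_mul_of_nonneg_left (hbd x hx).1 he.le
      refine le_trans ?_ (exp_lower (z := c * S x) (hz.trans (by nlinarith)))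
      have : |c * S x| ^ 3 ≤ e ^ 3 * B' ^ 3 := by
        rw [← mul_pow]; exact pow_le_pow_left₀ (abs_nonneg _) hz 3
      nlinarith [mul_pow c (S x) 2]
    have hup : ∫ x in A, Real.exp (2 * e ^ 2 * W x) ≤ R := by
      have e1 : ∫ x in A, (1 + 2 * e ^ 2 * W x + 4 * e ^ 4 * B' ^ 2) = R := by
        rw [integral_add (hint _ (by fun_prop)) (hint _ continuous_const),
          integral_add (hint _ continuous_const) (hint _ (by fun_prop)),
          integral_const_mul, setIntegral_const, setIntegral_const, smul_eq_mul, smul_eq_mul]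
        simp only [R, V, p]
        ring
      rw [← e1]
      refine setIntegral_mono_on (hint _ (by fun_prop)) (hint _ (by fun_prop)) hAm fun x hx => ?_
      have hz : |2 * e ^ 2 * W x| ≤ 2 * e ^ 2 * B' := by
        rw [abs_mul, abs_of_nonneg (show (0 : ℝ) ≤ 2 * e ^ 2 by positivity)]
        exact mul_le_mul_of_nonneg_left (hbd x hx).2 (by positivity)
      refine (exp_upper (hz.trans (by nlinarith))).trans ?_
      have : (2 * e ^ 2 * W x) ^ 2 ≤ (2 * e ^ 2 * B') ^ 2 := by
        rw [← sq_abs (2 * e ^ 2 * W x)]; exact pow_le_pow_left₀ (abs_nonneg _) hz 2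
      nlinarith
    have h2 : 0 ≤ ∫ x in A, Real.exp (2 * e ^ 2 * W x) :=
      setIntegral_nonneg hAm fun x _ => (Real.exp_pos _).le
    have hLR : L ≤ R := by
      rcases le_or_gt L 0 with hL | hL
      · exact hL.trans (h2.trans hup)
      refine le_of_pow_le_pow_left₀ two_ne_zero (h2.trans hup) ?_
      calc L ^ 2 = L * L := sq L
        _ ≤ (∫ x in A, Real.exp (e * S x)) * ∫ x in A, Real.exp (-e * S x) :=
            mul_le_mul (hlow e (abs_of_pos he)) (hlow (-e) (by rw [abs_neg, abs_of_pos he])) hL.le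
              (hL.le.trans (hlow e (abs_of_pos he)))
        _ ≤ _ := exp_moment hA I m e
        _ ≤ R ^ 2 := pow_le_pow_left₀ h2 hup 2
    have hV : 0 ≤ V := measureReal_nonneg
    have h4 : e ^ 4 * B' ^ 2 * V ≤ e ^ 3 * B' ^ 2 * V := by
      have := pow_le_pow_of_le_one he.le he1 (show 3 ≤ 4 by norm_num)
      gcongr
    have : e ^ 2 * q ≤ e ^ 2 * (4 * p + C * e) := by
      simp only [L, R, C] at hLR ⊢
      nlinarith
    exact le_of_mul_le_mul_left this (by positivity)
  have hC : 0 ≤ C := by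
    have : 0 ≤ V := measureReal_nonneg
    positivity
  refine le_of_forall_pos_le_add fun ε hε => ?_
  set e := min (min 1 (1 / (2 * B'))) (ε / (C + 1)) with he
  have he0 : 0 < e := by positivity
  have h := key e he0 ((min_le_left _ _).trans (min_le_left _ _)) (by
    have : e ≤ 1 / (2 * B') := (min_le_left _ _).trans (min_le_right _ _)
    rw [le_div_iff₀ (by positivity)] at this
    linarith)
  have : C * e ≤ ε := by
    have : e ≤ ε / (C + 1) := min_le_right _ _
    rw [le_div_iff₀ (by positivity)] at this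
    nlinarith
  calc q ≤ 4 * p + C * e := h
    _ ≤ 4 * p + ε := by linarith

end Vale.Agent.P254.Sym
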