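import Vale.Agent.P254.Sym.Marg
import Vale.Agent.P254.Sym.Var

/-!
Assembly of the symmetric-class theorem.
-/

namespace Vale.Agent.P254.Sym

lemma hasLogConcave : HasLogConcave := fun {_ _} hA s t l hl0 hl1 hs ht =>
  down_logconcave hA s t l hl0.le hl1.le hs ht

lemma hasVar : HasVar := fun {_ _} hA I m hm => var_le hA I m hm

end Vale.Agent.P254.Sym
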