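import Vale.Agent.P254.Sym.Assembly

/-!
Section functions of convex downsets from Brunn-Minkowski.
-/

open MeasureTheory Set

namespace Vale.Agent.P254.Sym

/-- Log-concavity of the first section function. -/
def HasLogConcave : Prop :=
  ∀ {n : ℕ} {A : Set (Fin (n + 1) → ℝ)}, Down A → ∀ s t l : ℝ, 0 < l → l < 1 → 0 ≤ s → 0 ≤ t →
    sect A s ^ (1 - l) * sect A t ^ l ≤ sect A ((1 - l) * s + l * t)

theorem hasMarg (hL : HasLogConcave) : HasMarg := by
  intro n A hA i
  obtain ⟨R, -, hR⟩ := hA.bound
  have hlc : ∀ s t l : ℝ, 0 < l → l < 1 → 0 ≤ s → 0 ≤ t →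
      sectAt A i s ^ (1 - l) * sectAt A i t ^ l ≤ sectAt A i ((1 - l) * s + l * t) := by
    intro s t l h1 h2 hs ht
    have := hL (front_down hA i) s t l h1 h2 hs ht
    simpa only [sect, sectAt, slice_front] using this
  refine ⟨R, ⟨sectAt_nonneg A i, sectAt_anti hA i, fun t ht => ?_, ?_, sectAt_measurable hA i⟩⟩
  · simp [sectAt, slAt_empty hR i ht]
  · intro a b c d ha hab hac hbd hcd hsum
    set g := sectAt A i with hg
    have hnn : ∀ t, 0 ≤ g t := sectAt_nonneg A i
    rcases eq_or_lt_of_le hab with rfl | hab'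
    · have : c = d := by linarith
      subst this; exact le_rfl
    rcases eq_or_lt_of_le hbd with rfl | hbd'
    · have : c = a := by linarith
      subst this; exact le_of_eq (mul_comm _ _)
    set l := (b - a) / (d - a) with hl
    have hda : 0 < d - a := by linarith
    have hl0 : 0 < l := div_pos (by linarith) hda
    have hl1 : l < 1 := by rw [hl, div_lt_one hda]; linarith
    have e1 : (1 - l) * a + l * d = b := by rw [hl]; field_simp; ring
    have e2 : (1 - (1 - l)) * a + (1 - l) * d = c := by
      have hc : c = a + d - b := by linarith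
      rw [hc, hl]; field_simp; ring
    have hd0 : 0 ≤ d := by linarith
    have k1 := hlc a d l hl0 hl1 ha hd0
    have k2 := hlc a d (1 - l) (by linarith) (by linarith) ha hd0
    rw [e1] at k1
    rw [e2, sub_sub_cancel] at k2
    calc g a * g d = g a ^ (1:ℝ) * g d ^ (1:ℝ) := by rw [Real.rpow_one, Real.rpow_one]
      _ = (g a ^ (1 - l) * g d ^ l) * (g a ^ l * g d ^ (1 - l)) := by
          rw [show (1:ℝ) = (1 - l) + l by ring, Real.rpow_add' (hnn a) (by norm_num),
            Real.rpow_add' (hnn d) (by norm_num)]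
          simp only [sub_add_cancel]
          ring
      _ ≤ g b * g c := mul_le_mul k1 k2
          (mul_nonneg (Real.rpow_nonneg (hnn a) _) (Real.rpow_nonneg (hnn d) _)) (hnn b)

end Vale.Agent.P254.Sym
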