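import Vale.Agent.P254.Sym.Defs
import Vale.Agent.P254.Orlicz.Simplex

/-!
One-variable inequalities for log-concave nonincreasing functions on the half-line.
-/

open MeasureTheory Set

namespace Vale.Agent.P254.Sym

variable {g : ℝ → ℝ} {R : ℝ}

/-- The level function attached to `g`. -/
noncomputable def lev (g : ℝ → ℝ) (R s : ℝ) : ℝ := if s < 0 then 0 else g (max (R - s) 0)

lemma good_lev (hg : Marg g R) : Orlicz.Good (lev g R) := by
  have hanti : ∀ s t : ℝ, s ≤ t → g (max (R - s) 0) ≤ g (max (R - t) 0) := fun s t h =>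
    hg.anti (le_max_right (R - t) 0) (le_max_right (R - s) 0) (max_le_max (by linarith) le_rfl)
  refine ⟨fun s => ?_, fun s t h => ?_, fun s hs => if_pos hs, fun a b c d hab hac hbd hcd hsum => ?_⟩
  · unfold lev; split_ifs; exacts [le_rfl, hg.nonneg _]
  · unfold lev
    split_ifs with h1 h2 h2
    exacts [le_rfl, hg.nonneg _, absurd h1 (by linarith), hanti s t h]
  · unfold lev
    rcases lt_or_ge a 0 with ha | ha
    · rw [if_pos ha, zero_mul]
      refine mul_nonneg ?_ ?_ <;> split_ifs <;> first | exact le_rfl | exact hg.nonneg _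
    · rw [if_neg (not_lt.2 ha), if_neg (by linarith), if_neg (by linarith), if_neg (by linarith)]
      set A := max (R - a) 0 with hA
      set B := max (R - b) 0 with hB
      set C := max (R - c) 0 with hC
      set D := max (R - d) 0 with hD
      have hD0 : 0 ≤ D := le_max_right _ _
      have hBA : B ≤ A := max_le_max (by linarith) le_rfl
      have hCA : C ≤ A := max_le_max (by linarith) le_rfl
      have hDB : D ≤ B := max_le_max (by linarith) le_rfl
      have hDC : D ≤ C := max_le_max (by linarith) le_rfl
      have hsum' : B + C ≤ A + D := by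
        have a1 := le_max_left (R - a) 0; have a2 := le_max_right (R - a) 0
        have d1 := le_max_left (R - d) 0; have d2 := le_max_right (R - d) 0
        rw [← hA] at a1 a2; rw [← hD] at d1 d2
        rcases max_choice (R - b) 0 with eb | eb <;> rcases max_choice (R - c) 0 with ec | ec <;>
          rw [← hB] at eb <;> rw [← hC] at ec <;> linarith
      set B' := min A (A + D - C) with hB'
      have h1 : B ≤ B' := le_min hBA (by linarith)
      have h2 : C ≤ A + D - B' := by have := min_le_right A (A + D - C); linarith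
      have h3 : B' ≤ A := min_le_left _ _
      calc g A * g D = g D * g A := mul_comm _ _
        _ ≤ g B' * g (A + D - B') :=
            hg.prod D B' (A + D - B') A hD0 (by linarith) (by linarith) h3 (by linarith) (by ring)
        _ ≤ g B * g C := mul_le_mul (hg.anti (show (0:ℝ) ≤ B from le_max_right _ _)
            (show (0:ℝ) ≤ B' by linarith) h1) (hg.anti (show (0:ℝ) ≤ C from le_max_right _ _)
            (show (0:ℝ) ≤ A + D - B' by linarith) h2) (hg.nonneg _) (hg.nonneg _)

/-- The identity Young function on the half-line. -/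
lemma young_id : Orlicz.Young (fun x : ℝ => max x 0) := Orlicz.lin_young 1 0

lemma gfun_lev (hg : Marg g R) {x : ℝ} (hx : 0 ≤ x) :
    Orlicz.gfun (lev g R) (fun x => max x 0) R x = g x := by
  simp only [Orlicz.gfun, lev, max_eq_left hx]
  split_ifs with h
  · rw [hg.beyond x (by linarith)]
  · rw [sub_sub_cancel, max_eq_left hx]

lemma integrable_mul_cont (hg : Marg g R) {u : ℝ → ℝ} (hu : Continuous u) :
    IntegrableOn (fun x => u x * g x) (Ioi 0) := by
  obtain ⟨C, hC⟩ := (isCompact_Icc (a := (0:ℝ)) (b := R)).exists_bound_of_continuousOn hu.continuousOn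
  refine Orlicz.integrable_of_bound (a := R) (C := C * g 0) (hu.measurable.mul hg.meas)
    (fun x hx => by simp [hg.beyond x hx]) fun x hx => ?_
  rw [abs_mul, abs_of_nonneg (hg.nonneg x)]
  have h1 : |u x| ≤ C := by simpa [Real.norm_eq_abs] using hC x ⟨hx.1.le, hx.2⟩
  exact mul_le_mul h1 (hg.anti (mem_Ici.2 (le_refl (0:ℝ))) (mem_Ici.2 hx.1.le) hx.1.le)
    (hg.nonneg _) ((abs_nonneg _).trans h1)

lemma integrable_marg (hg : Marg g R) : IntegrableOn g (Ioi 0) := by
  simpa using integrable_mul_cont hg (u := fun _ => (1:ℝ)) continuous_const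

/-- Total mass. -/
noncomputable def mU (g : ℝ → ℝ) : ℝ := ∫ x in Ioi (0:ℝ), g x

/-- First moment. -/
noncomputable def mM (g : ℝ → ℝ) : ℝ := ∫ x in Ioi (0:ℝ), x * g x

/-- Second moment. -/
noncomputable def mS (g : ℝ → ℝ) : ℝ := ∫ x in Ioi (0:ℝ), x ^ 2 * g x

lemma mU_nonneg (hg : Marg g R) : 0 ≤ mU g :=
  setIntegral_nonneg measurableSet_Ioi fun x _ => hg.nonneg x

lemma mM_nonneg (hg : Marg g R) : 0 ≤ mM g :=
  setIntegral_nonneg measurableSet_Ioi fun x hx => mul_nonneg (le_of_lt hx) (hg.nonneg x)

lemma mU_eq (hg : Marg g R) : Orlicz.U (lev g R) (fun x => max x 0) R = mU g :=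
  setIntegral_congr_fun measurableSet_Ioi fun _ hx => gfun_lev hg (le_of_lt hx)

lemma mM_eq (hg : Marg g R) : Orlicz.M (lev g R) (fun x => max x 0) R = mM g :=
  setIntegral_congr_fun measurableSet_Ioi fun x hx => by rw [gfun_lev hg (le_of_lt hx)]

lemma tail_eq (hg : Marg g R) {y : ℝ} (hy : 0 ≤ y) :
    Orlicz.tail (lev g R) (fun x => max x 0) R y = ∫ t in Ioi (0:ℝ), g (y + t) :=
  setIntegral_congr_fun measurableSet_Ioi fun _ ht => gfun_lev hg (add_nonneg hy (le_of_lt ht))

lemma integrable_tail_mul (hg : Marg g R) {u : ℝ → ℝ} (hu : Continuous u) :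
    IntegrableOn (fun y => u y * Orlicz.tail (lev g R) (fun x => max x 0) R y) (Ioi 0) := by
  set T := Orlicz.tail (lev g R) (fun x => max x 0) R with hT
  obtain ⟨C, hC⟩ := (isCompact_Icc (a := (0:ℝ)) (b := R)).exists_bound_of_continuousOn hu.continuousOn
  have hanti : Antitone fun y => T (max y 0) := by
    intro x y hxy
    simp only [hT, tail_eq hg (le_max_right _ (0:ℝ))]
    refine setIntegral_mono_on (Orlicz.integrableOn_shift (le_max_right _ _) (integrable_marg hg))
      (Orlicz.integrableOn_shift (le_max_right _ _) (integrable_marg hg)) measurableSet_Ioi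
      fun t ht => ?_
    have ht' : 0 < t := ht
    exact hg.anti (show (0:ℝ) ≤ max x 0 + t from add_nonneg (le_max_right _ _) ht'.le)
      (show (0:ℝ) ≤ max y 0 + t from add_nonneg (le_max_right _ _) ht'.le)
      (by linarith [max_le_max hxy (le_refl (0:ℝ))])
  have h := Orlicz.integrable_of_bound (f := fun y => u y * T (max y 0) * (Iic R).indicator 1 y)
    (a := R) (C := C * Orlicz.U (lev g R) (fun x => max x 0) R)
    ((hu.measurable.mul hanti.measurable).mul (measurable_one.indicator measurableSet_Iic))
    (fun x hx => by simp [not_le.2 hx]) fun x hx => by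
      have h1 : |u x| ≤ C := by simpa [Real.norm_eq_abs] using hC x ⟨hx.1.le, hx.2⟩
      have h2 := Orlicz.tail_le (good_lev hg) young_id R hx.1.le
      rw [show (Iic R).indicator (1 : ℝ → ℝ) x = 1 from indicator_of_mem (show x ∈ Iic R from hx.2) _, mul_one,
        max_eq_left hx.1.le, abs_mul]
      exact mul_le_mul h1 h2 (abs_nonneg _) ((abs_nonneg _).trans h1)
  refine h.congr_fun (fun x hx => ?_) measurableSet_Ioi
  simp only [max_eq_left (le_of_lt (mem_Ioi.1 hx))]
  rcases le_or_gt x R with hxR | hxR
  · rw [show (Iic R).indicator (1 : ℝ → ℝ) x = 1 from indicator_of_mem (show x ∈ Iic R from hxR) _, mul_one]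
  · have : T x = 0 := by
      rw [hT, tail_eq hg (le_of_lt hx)]
      exact setIntegral_eq_zero_of_forall_eq_zero fun t ht => hg.beyond _ (by linarith [mem_Ioi.1 ht])
    rw [this, mul_zero, zero_mul]

/-- Hazard monotonicity: `T y * g x ≤ g y * T x` for `0 ≤ x ≤ y`. -/
lemma tail_mul_le (hg : Marg g R) {x y : ℝ} (hx : 0 ≤ x) (hxy : x ≤ y) :
    Orlicz.tail (lev g R) (fun x => max x 0) R y * g x ≤
      g y * Orlicz.tail (lev g R) (fun x => max x 0) R x := by
  rw [tail_eq hg (hx.trans hxy), tail_eq hg hx, ← integral_mul_const, ← integral_const_mul]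
  refine setIntegral_mono_on
    ((Orlicz.integrableOn_shift (hx.trans hxy) (integrable_marg hg)).mul_const _)
    ((Orlicz.integrableOn_shift hx (integrable_marg hg)).const_mul _) measurableSet_Ioi fun t ht => ?_
  have ht' : 0 < t := ht
  rw [mul_comm (g (y + t))]
  exact hg.prod x y (x + t) (y + t) hx hxy (by linarith) (by linarith) (by linarith) (by ring)

/-- `g(0) * M ≤ U²`. -/
theorem face_mul (hg : Marg g R) : g 0 * mM g ≤ mU g ^ 2 := by
  have h0 : Orlicz.tail (lev g R) (fun x => max x 0) R 0 = mU g := by
    rw [tail_eq hg le_rfl]; simp [mU]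
  have hT : IntegrableOn (Orlicz.tail (lev g R) (fun x => max x 0) R) (Ioi 0) := by
    simpa using integrable_tail_mul hg (u := fun _ => (1:ℝ)) continuous_const
  have h := setIntegral_mono_on (hT.mul_const (g 0)) ((integrable_marg hg).mul_const (mU g))
    measurableSet_Ioi fun y hy => by
      have := tail_mul_le hg le_rfl (le_of_lt (mem_Ioi.1 hy))
      rwa [h0] at this
  rw [integral_mul_const, integral_mul_const, Orlicz.integral_tail (good_lev hg) young_id,
    mM_eq hg] at h
  calc g 0 * mM g = mM g * g 0 := mul_comm _ _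
    _ ≤ mU g * mU g := h
    _ = mU g ^ 2 := (sq _).symm

/-- `U * S ≤ 2 M²`. -/
theorem second_le (hg : Marg g R) : mU g * mS g ≤ 2 * mM g ^ 2 := by
  set T := Orlicz.tail (lev g R) (fun x => max x 0) R with hT
  have hT1 : IntegrableOn T (Ioi 0) := by
    simpa using integrable_tail_mul hg (u := fun _ => (1:ℝ)) continuous_const
  have hTx : IntegrableOn (fun y => y * T y) (Ioi 0) := integrable_tail_mul hg continuous_id
  have hgx : IntegrableOn (fun y => y * g y) (Ioi 0) := integrable_mul_cont hg continuous_id
  have eT : ∫ y in Ioi (0:ℝ), T y = mM g := by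
    rw [hT, Orlicz.integral_tail (good_lev hg) young_id, mM_eq hg]
  have eX : ∫ y in Ioi (0:ℝ), y * T y = mS g / 2 := by
    have hum : Measurable fun y : ℝ => max 0 (min y R) :=
      (continuous_const.max (continuous_id.min continuous_const)).measurable
    have hub : ∃ C, ∀ y : ℝ, |max 0 (min y R)| ≤ C := ⟨max 0 R, fun y => by
      rw [abs_of_nonneg (le_max_left _ _)]; exact max_le_max le_rfl (min_le_right _ _)⟩
    have k := Orlicz.integral_mul_tail (good_lev hg) young_id R hum hub
    have el : ∫ y in Ioi (0:ℝ), max 0 (min y R) * T y = ∫ y in Ioi (0:ℝ), y * T y := by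
      refine setIntegral_congr_fun measurableSet_Ioi fun y hy => ?_
      rcases le_or_gt y R with h | h
      · rw [min_eq_left h, max_eq_right (le_of_lt (mem_Ioi.1 hy))]
      · have : T y = 0 := by
          rw [hT, tail_eq hg (le_of_lt hy)]
          exact setIntegral_eq_zero_of_forall_eq_zero fun t ht =>
            hg.beyond _ (by linarith [mem_Ioi.1 ht])
        rw [this, mul_zero, mul_zero]
    rw [hT] at el
    rw [← el, k, mS, ← integral_div]
    refine setIntegral_congr_fun measurableSet_Ioi fun t ht => ?_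
    rw [gfun_lev hg (le_of_lt ht)]
    rcases le_or_gt t R with h | h
    · have : ∫ y in Ioo 0 t, max 0 (min y R) = t ^ 2 / 2 := by
        rw [← integral_Ioc_eq_integral_Ioo,
          setIntegral_congr_fun measurableSet_Ioc (g := fun y : ℝ => y) fun y hy => by
            rw [min_eq_left (hy.2.trans h), max_eq_right hy.1.le],
          ← intervalIntegral.integral_of_le (le_of_lt ht), integral_id]
        ring
      rw [this]; ring
    · simp [hg.beyond t h]
  have key : ∀ y ∈ Ioi (0:ℝ),
      0 ≤ mM g * T y - g y * (mS g / 2) - y * (mU g * T y - g y * mM g) := by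
    intro y hy
    have hy' : 0 ≤ y := le_of_lt hy
    have hp : ∀ x ∈ Ioi (0:ℝ), 0 ≤ (x - y) * (g x * T y - g y * T x) := by
      intro x hx
      rcases le_total x y with h | h
      · refine mul_nonneg_of_nonpos_of_nonpos (by linarith) ?_
        have := tail_mul_le hg (le_of_lt (mem_Ioi.1 hx)) h
        linarith
      · refine mul_nonneg (by linarith) ?_
        have := tail_mul_le hg hy' h
        linarith
    have h := setIntegral_nonneg (μ := volume) measurableSet_Ioi hp
    have e : ∀ x, (x - y) * (g x * T y - g y * T x) =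
        ((x * g x) * T y - g y * (x * T x)) - y * (g x * T y - g y * T x) := fun x => by ring
    simp only [e] at h
    have i1 : Integrable (fun x => (x * g x) * T y - g y * (x * T x))
        (volume.restrict (Ioi 0)) := (hgx.mul_const _).sub (hTx.const_mul _)
    have i2 : Integrable (fun x => g x * T y - g y * T x) (volume.restrict (Ioi 0)) :=
      ((integrable_marg hg).mul_const _).sub (hT1.const_mul _)
    rw [integral_sub i1 (i2.const_mul y), integral_const_mul,
      integral_sub (hgx.mul_const _) (hTx.const_mul _),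
      integral_sub ((integrable_marg hg).mul_const _) (hT1.const_mul _), integral_mul_const,
      integral_mul_const, integral_const_mul, integral_const_mul, eT, eX] at h
    exact h
  have h := setIntegral_nonneg (μ := volume) measurableSet_Ioi key
  have e : ∀ y, mM g * T y - g y * (mS g / 2) - y * (mU g * T y - g y * mM g) =
      (mM g * T y - mS g / 2 * g y) - (mU g * (y * T y) - mM g * (y * g y)) := fun y => by ring
  simp only [e] at h
  have i1 : Integrable (fun y => mM g * T y - mS g / 2 * g y) (volume.restrict (Ioi 0)) :=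
    (hT1.const_mul _).sub ((integrable_marg hg).const_mul _)
  have i2 : Integrable (fun y => mU g * (y * T y) - mM g * (y * g y)) (volume.restrict (Ioi 0)) :=
    (hTx.const_mul _).sub (hgx.const_mul _)
  rw [integral_sub i1 i2, integral_sub (hT1.const_mul _) ((integrable_marg hg).const_mul _),
    integral_sub (hTx.const_mul _) (hgx.const_mul _), integral_const_mul, integral_const_mul,
    integral_const_mul, integral_const_mul, eT, eX] at h
  change 0 ≤ mM g * mM g - mS g / 2 * mU g - (mU g * (mS g / 2) - mM g * mM g) at h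
  linarith

/-- The entropy functional `∫ -g log (g / U)`. -/
noncomputable def ent (g : ℝ → ℝ) : ℝ :=
  ∫ x in Ioi (0:ℝ), -(g x * Real.log (g x / mU g))

lemma integrable_ent (hg : Marg g R) :
    IntegrableOn (fun x => -(g x * Real.log (g x / mU g))) (Ioi 0) := by
  have hc : Continuous fun y : ℝ => mU g * Real.negMulLog y :=
    continuous_const.mul Real.continuous_negMulLog
  obtain ⟨C, hC⟩ := (isCompact_Icc (a := (0:ℝ)) (b := g 0 / mU g)).exists_bound_of_continuousOn
    hc.continuousOn
  refine Orlicz.integrable_of_bound (a := R) (C := C)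
    ((hg.meas.mul (hg.meas.div_const _).log).neg) (fun x hx => by simp [hg.beyond x hx]) fun x hx => ?_
  rcases (mU_nonneg hg).eq_or_lt with hU | hU
  · simp [← hU, le_trans (norm_nonneg _) (hC 0 ⟨le_rfl, by simp [← hU]⟩)]
  have e : -(g x * Real.log (g x / mU g)) = mU g * Real.negMulLog (g x / mU g) := by
    rw [Real.negMulLog]; field_simp
  rw [e, ← Real.norm_eq_abs]
  exact hC _ ⟨div_nonneg (hg.nonneg _) hU.le, (div_le_div_iff_of_pos_right hU).2
    (hg.anti (mem_Ici.2 (le_refl (0:ℝ))) (mem_Ici.2 hx.1.le) hx.1.le)⟩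

/-- Pointwise tangent bound. -/
lemma ent_tangent {v U c : ℝ} (hv : 0 ≤ v) (hU : 0 < U) (hc : 0 < c) :
    v * (1 + Real.log c) - c / U * v ^ 2 ≤ -(v * Real.log (v / U)) := by
  rcases hv.eq_or_lt with h | h
  · simp [← h]
  · have h1 := Real.log_le_sub_one_of_pos (show 0 < c * (v / U) by positivity)
    rw [Real.log_mul hc.ne' (by positivity)] at h1
    have := mul_le_mul_of_nonneg_left h1 hv
    have e : c / U * v ^ 2 = v * (c * (v / U)) := by ring
    rw [e]; linarith

/-- Entropy against the mean. -/
theorem ent_mean (hg : Marg g R) (hU : 0 < mU g) (hM : 0 < mM g) :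
    mU g * Real.log (2 * mM g / mU g) ≤ ent g := by
  set c := 2 * mM g / mU g with hc
  have hc0 : 0 < c := by positivity
  have hg2 : IntegrableOn (fun x => g x ^ 2) (Ioi 0) := by
    refine Orlicz.integrable_of_bound (a := R) (C := g 0 ^ 2) (hg.meas.pow_const 2)
      (fun x hx => by simp [hg.beyond x hx]) fun x hx => ?_
    rw [abs_of_nonneg (sq_nonneg _)]
    exact pow_le_pow_left₀ (hg.nonneg _)
      (hg.anti (mem_Ici.2 (le_refl (0:ℝ))) (mem_Ici.2 hx.1.le) hx.1.le) 2
  have h := setIntegral_mono_on
    (((integrable_marg hg).mul_const (1 + Real.log c)).sub (hg2.const_mul (c / mU g)))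
    (integrable_ent hg) measurableSet_Ioi fun x _ => ent_tangent (hg.nonneg x) hU hc0
  rw [integral_sub' ((integrable_marg hg).mul_const _) (hg2.const_mul _), integral_mul_const,
    integral_const_mul] at h
  have hQ := Orlicz.cube_ge (good_lev hg) young_id R
  rw [mU_eq hg, mM_eq hg] at hQ
  have hQe : Orlicz.Q (lev g R) (fun x => max x 0) R = ∫ x in Ioi (0:ℝ), g x ^ 2 :=
    setIntegral_congr_fun measurableSet_Ioi fun x hx => by rw [gfun_lev hg (le_of_lt hx)]
  rw [hQe] at hQ
  have : c / mU g * (∫ x in Ioi (0:ℝ), g x ^ 2) ≤ mU g := by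
    rw [hc, div_div, div_mul_eq_mul_div, div_le_iff₀ (by positivity)]
    linarith [show mU g ^ 3 = mU g * (mU g * mU g) by ring]
  change mU g * (1 + Real.log c) - _ ≤ ent g at h
  linarith

/-- Entropy against the value at zero. -/
theorem ent_face (hg : Marg g R) (hU : 0 < mU g) {c : ℝ} (hc : 0 < c) :
    mU g * (1 + Real.log c) - c * g 0 ≤ ent g := by
  have h := setIntegral_mono_on
    (((integrable_marg hg).mul_const (1 + Real.log c)).sub
      ((integrable_marg hg).const_mul (c / mU g * g 0)))
    (integrable_ent hg) measurableSet_Ioi fun x hx => by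
      refine le_trans ?_ (ent_tangent (hg.nonneg x) hU hc)
      have h0 := hg.anti (mem_Ici.2 (le_refl (0:ℝ))) (mem_Ici.2 (le_of_lt (mem_Ioi.1 hx)))
        (le_of_lt (mem_Ioi.1 hx))
      simp only [Pi.sub_apply]
      have := mul_le_mul_of_nonneg_left (mul_le_mul_of_nonneg_right h0 (hg.nonneg x))
        (div_nonneg hc.le hU.le)
      nlinarith
  rw [integral_sub' ((integrable_marg hg).mul_const _) ((integrable_marg hg).const_mul _),
    integral_mul_const, integral_const_mul] at h
  refine le_trans (le_of_eq ?_) h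
  change _ = mU g * (1 + Real.log c) - c / mU g * g 0 * mU g
  field_simp

end Vale.Agent.P254.Sym
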