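import Vale.Agent.P254.Sym.OneD

/-!
Slicing convex downsets along a coordinate.
-/

open MeasureTheory Set

namespace Vale.Agent.P254.Sym

variable {n : ℕ}

/-- The slice at height `t` in coordinate `i`. -/
def slAt (A : Set (Fin (n + 1) → ℝ)) (i : Fin (n + 1)) (t : ℝ) : Set (Fin n → ℝ) :=
  {z | Fin.insertNth i t z ∈ A}

/-- The volume of the slice at height `t` in coordinate `i`. -/
noncomputable def sectAt (A : Set (Fin (n + 1) → ℝ)) (i : Fin (n + 1)) (t : ℝ) : ℝ :=
  volume.real (slAt A i t)

lemma slAt_zero (A : Set (Fin (n + 1) → ℝ)) (t : ℝ) : slAt A 0 t = slice A t := by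
  ext z; simp [slAt, slice, Fin.insertNth_zero']

lemma Down.bound {A : Set (Fin n → ℝ)} (hA : Down A) :
    ∃ R, 0 ≤ R ∧ ∀ x ∈ A, ∀ i, x i ≤ R := by
  obtain ⟨C, hC⟩ := hA.compact.exists_bound_of_continuousOn continuousOn_id
  refine ⟨max C 0, le_max_right _ _, fun x hx i => le_trans ?_ (le_max_left _ _)⟩
  have := (norm_le_pi_norm x i).trans (hC x hx)
  rw [Real.norm_eq_abs] at this
  exact (le_abs_self _).trans this

lemma Down.measurable {A : Set (Fin n → ℝ)} (hA : Down A) : MeasurableSet A :=
  hA.compact.measurableSet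

lemma Down.finite {A : Set (Fin n → ℝ)} (hA : Down A) : volume A ≠ ⊤ :=
  hA.compact.measure_lt_top.ne

lemma continuous_insert (i : Fin (n + 1)) (t : ℝ) :
    Continuous fun z : Fin n → ℝ => (Fin.insertNth i t z : Fin (n + 1) → ℝ) := by
  refine continuous_pi (Fin.forall_iff_succAbove i |>.2 ⟨?_, fun j => ?_⟩)
  · simpa using continuous_const
  · simpa using continuous_apply j

lemma slAt_down {A : Set (Fin (n + 1) → ℝ)} (hA : Down A) (i : Fin (n + 1)) (t : ℝ) :
    Down (slAt A i t) := by
  obtain ⟨R, -, hR⟩ := hA.bound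
  refine ⟨?_, ?_, fun z hz j => ?_, fun z hz w hw => ?_⟩
  · refine (isCompact_Icc (a := (0 : Fin n → ℝ)) (b := fun _ => R)).of_isClosed_subset
      (hA.compact.isClosed.preimage (continuous_insert i t)) fun z hz => ⟨fun j => ?_, fun j => ?_⟩
    · simpa using hA.nonneg _ hz (i.succAbove j)
    · simpa using hR _ hz (i.succAbove j)
  · intro z hz w hw a b ha hb hab
    show Fin.insertNth i t (a • z + b • w) ∈ A
    have e : (Fin.insertNth i t (a • z + b • w) : Fin (n + 1) → ℝ) =
        a • (Fin.insertNth i t z : Fin (n + 1) → ℝ) + b • (Fin.insertNth i t w : Fin (n + 1) → ℝ) := by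
      funext k
      refine (Fin.forall_iff_succAbove i (P := fun k =>
        (Fin.insertNth i t (a • z + b • w) : Fin (n + 1) → ℝ) k =
        (a • (Fin.insertNth i t z : Fin (n + 1) → ℝ) +
          b • (Fin.insertNth i t w : Fin (n + 1) → ℝ)) k)).2 ⟨?_, fun j => ?_⟩ k
      · simp only [Fin.insertNth_apply_same, Pi.add_apply, Pi.smul_apply, smul_eq_mul]
        rw [← add_mul, hab, one_mul]
      · simp
    rw [e]
    exact hA.convex hz hw ha hb hab
  · simpa using hA.nonneg _ hz (i.succAbove j)
  · refine hA.lower _ hz _ ((Fin.forall_iff_succAbove i).2 ⟨?_, fun j => ?_⟩)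
    · have := hA.nonneg _ hz i
      simp only [Fin.insertNth_apply_same] at this ⊢
      exact ⟨this, le_rfl⟩
    · simpa using hw j

lemma slAt_anti {A : Set (Fin (n + 1) → ℝ)} (hA : Down A) (i : Fin (n + 1)) {s t : ℝ}
    (hs : 0 ≤ s) (hst : s ≤ t) : slAt A i t ⊆ slAt A i s := by
  intro z hz
  refine hA.lower _ hz _ ((Fin.forall_iff_succAbove i).2 ⟨by simp [hs, hst], fun j => ?_⟩)
  have := hA.nonneg _ hz (i.succAbove j)
  simp only [Fin.insertNth_apply_succAbove] at this ⊢
  exact ⟨this, le_rfl⟩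

lemma slAt_empty {A : Set (Fin (n + 1) → ℝ)} {R : ℝ} (hR : ∀ x ∈ A, ∀ i, x i ≤ R)
    (i : Fin (n + 1)) {t : ℝ} (ht : R < t) : slAt A i t = ∅ := by
  refine eq_empty_iff_forall_notMem.2 fun z hz => ?_
  have := hR _ hz i
  simp only [Fin.insertNth_apply_same] at this
  linarith

lemma slAt_neg {A : Set (Fin (n + 1) → ℝ)} (hA : Down A) (i : Fin (n + 1)) {t : ℝ} (ht : t < 0) :
    slAt A i t = ∅ := by
  refine eq_empty_iff_forall_notMem.2 fun z hz => ?_
  have := hA.nonneg _ hz i
  simp only [Fin.insertNth_apply_same] at this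
  linarith

lemma sectAt_nonneg (A : Set (Fin (n + 1) → ℝ)) (i : Fin (n + 1)) (t : ℝ) : 0 ≤ sectAt A i t :=
  measureReal_nonneg

lemma sectAt_anti {A : Set (Fin (n + 1) → ℝ)} (hA : Down A) (i : Fin (n + 1)) :
    AntitoneOn (sectAt A i) (Ici 0) := fun _ hs _ _ hst =>
  measureReal_mono (slAt_anti hA i hs hst) (slAt_down hA i _).finite

lemma sectAt_measurable {A : Set (Fin (n + 1) → ℝ)} (hA : Down A) (i : Fin (n + 1)) :
    Measurable (sectAt A i) := by
  have h : sectAt A i = (Ici (0:ℝ)).indicator fun t => sectAt A i (max t 0) := by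
    funext t
    rcases lt_or_ge t 0 with ht | ht
    · rw [indicator_of_notMem (show t ∉ Ici (0:ℝ) from not_le.2 ht)]
      simp [sectAt, slAt_neg hA i ht]
    · rw [indicator_of_mem (show t ∈ Ici (0:ℝ) from ht), max_eq_left ht]
  have hanti : Antitone fun t => sectAt A i (max t 0) := fun s t hst =>
    sectAt_anti hA i (mem_Ici.2 (le_max_right _ _)) (mem_Ici.2 (le_max_right _ _))
      (max_le_max hst le_rfl)
  rw [h]
  exact hanti.measurable.indicator measurableSet_Ici

/-- Fubini along one coordinate, with integrability of the slice integrals. -/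
theorem slice_integral {A : Set (Fin (n + 1) → ℝ)} (hA : Down A) (i : Fin (n + 1))
    {F : (Fin (n + 1) → ℝ) → ℝ} (hF : Continuous F) :
    IntegrableOn (fun t => ∫ z in slAt A i t, F (Fin.insertNth i t z)) (Ioi 0) ∧
    ∫ y in A, F y = ∫ t in Ioi (0:ℝ), ∫ z in slAt A i t, F (Fin.insertNth i t z) := by
  set e := MeasurableEquiv.piFinSuccAbove (fun _ : Fin (n + 1) => ℝ) i
  have hm := (volume_preserving_piFinSuccAbove (fun _ : Fin (n + 1) => ℝ) i).symm e
  set G : (Fin (n + 1) → ℝ) → ℝ := A.indicator F with hG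
  have hGi : Integrable G :=
    (hF.continuousOn.integrableOn_compact hA.compact).integrable_indicator hA.measurable
  have he : ∀ p : ℝ × (Fin n → ℝ), e.symm p = Fin.insertNth i p.1 p.2 := fun p => rfl
  have hprod : Integrable (fun p => G (e.symm p)) (volume.prod volume) :=
    (hm.integrable_comp_emb e.symm.measurableEmbedding (g := G)).2 hGi
  have e1 : ∀ t, (∫ z, G (e.symm (t, z))) = ∫ z in slAt A i t, F (Fin.insertNth i t z) := by
    intro t
    rw [← integral_indicator (slAt_down hA i t).measurable]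
    refine integral_congr_ae (Filter.Eventually.of_forall fun z => ?_)
    simp only [he, hG]
    by_cases hz : z ∈ slAt A i t
    · rw [indicator_of_mem hz, indicator_of_mem (show Fin.insertNth i t z ∈ A from hz)]
    · rw [indicator_of_notMem hz, indicator_of_notMem (show Fin.insertNth i t z ∉ A from hz)]
  have h1 := hprod.integral_prod_left
  simp only [e1] at h1
  refine ⟨h1.integrableOn, ?_⟩
  rw [← integral_indicator hA.measurable, ← hG, ← hm.integral_comp e.symm.measurableEmbedding G,
    Measure.volume_eq_prod, integral_prod _ hprod, ← integral_Ici_eq_integral_Ioi,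
    ← integral_indicator measurableSet_Ici]
  refine integral_congr_ae (Filter.Eventually.of_forall fun t => ?_)
  simp only [e1]
  rcases lt_or_ge t 0 with ht | ht
  · rw [indicator_of_notMem (show t ∉ Ici (0:ℝ) from not_le.2 ht), slAt_neg hA i ht]
    simp
  · rw [indicator_of_mem (show t ∈ Ici (0:ℝ) from ht)]

lemma mU_sect {A : Set (Fin (n + 1) → ℝ)} (hA : Down A) (i : Fin (n + 1)) :
    mU (sectAt A i) = volume.real A := by
  have h := (slice_integral hA i (F := fun _ => (1:ℝ)) continuous_const).2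
  simp only [setIntegral_const, smul_eq_mul, mul_one] at h
  exact h.symm

lemma mM_sect {A : Set (Fin (n + 1) → ℝ)} (hA : Down A) (i : Fin (n + 1)) :
    mM (sectAt A i) = ∫ y in A, y i := by
  rw [(slice_integral hA i (F := fun y => y i) (continuous_apply i)).2]
  refine setIntegral_congr_fun measurableSet_Ioi fun t _ => ?_
  simp [sectAt, mul_comm]

lemma mS_sect {A : Set (Fin (n + 1) → ℝ)} (hA : Down A) (i : Fin (n + 1)) :
    mS (sectAt A i) = ∫ y in A, y i ^ 2 := by
  rw [(slice_integral hA i (F := fun y => y i ^ 2) ((continuous_apply i).pow 2)).2]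
  refine setIntegral_congr_fun measurableSet_Ioi fun t _ => ?_
  simp [sectAt, mul_comm]

/-- The same set with the coordinate `i` moved to the front. -/
def front (A : Set (Fin (n + 1) → ℝ)) (i : Fin (n + 1)) : Set (Fin (n + 1) → ℝ) :=
  {x | Fin.insertNth i (x 0) (Fin.tail x) ∈ A}

lemma slice_front (A : Set (Fin (n + 1) → ℝ)) (i : Fin (n + 1)) (t : ℝ) :
    slice (front A i) t = slAt A i t := by
  ext z; simp [slice, front, slAt]

lemma front_down {A : Set (Fin (n + 1) → ℝ)} (hA : Down A) (i : Fin (n + 1)) :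
    Down (front A i) := by
  obtain ⟨R, -, hR⟩ := hA.bound
  have hc : Continuous fun x : Fin (n + 1) → ℝ =>
      (Fin.insertNth i (x 0) (Fin.tail x) : Fin (n + 1) → ℝ) := by
    refine continuous_pi ((Fin.forall_iff_succAbove i).2 ⟨?_, fun j => ?_⟩)
    · simpa using continuous_apply 0
    · simpa [Fin.tail] using continuous_apply j.succ
  have hnn : ∀ x ∈ front A i, ∀ k, 0 ≤ x k ∧ x k ≤ R := by
    intro x hx
    refine Fin.cases ?_ (fun j => ?_)
    · have h1 := hA.nonneg _ hx i; have h2 := hR _ hx i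
      simp only [Fin.insertNth_apply_same] at h1 h2
      exact ⟨h1, h2⟩
    · have h1 := hA.nonneg _ hx (i.succAbove j); have h2 := hR _ hx (i.succAbove j)
      simp only [Fin.insertNth_apply_succAbove, Fin.tail] at h1 h2
      exact ⟨h1, h2⟩
  refine ⟨?_, ?_, fun x hx k => (hnn x hx k).1, fun x hx y hy => ?_⟩
  · refine (isCompact_Icc (a := (0 : Fin (n + 1) → ℝ)) (b := fun _ => R)).of_isClosed_subset
      (hA.compact.isClosed.preimage hc) fun x hx => ⟨fun k => (hnn x hx k).1, fun k => (hnn x hx k).2⟩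
  · intro x hx y hy a b ha hb hab
    have h := hA.convex hx hy ha hb hab
    show Fin.insertNth i ((a • x + b • y) 0) (Fin.tail (a • x + b • y)) ∈ A
    convert h using 1
    funext k
    refine (Fin.forall_iff_succAbove i (P := fun k =>
      (Fin.insertNth i ((a • x + b • y) 0) (Fin.tail (a • x + b • y)) : Fin (n + 1) → ℝ) k =
      (a • (Fin.insertNth i (x 0) (Fin.tail x) : Fin (n + 1) → ℝ) +
        b • (Fin.insertNth i (y 0) (Fin.tail y) : Fin (n + 1) → ℝ)) k)).2 ⟨?_, fun j => ?_⟩ k
    · simp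
    · simp [Fin.tail]
  · refine hA.lower _ hx _ ((Fin.forall_iff_succAbove i).2 ⟨?_, fun j => ?_⟩)
    · simpa using hy 0
    · simpa [Fin.tail] using hy j.succ

/-- The slice at zero in coordinate `k`, for every dimension. -/
noncomputable def face : {n : ℕ} → Set (Fin n → ℝ) → Fin n → ℝ
  | 0, _, k => k.elim0
  | _ + 1, A, k => sectAt A k 0

lemma face_nonneg {A : Set (Fin n → ℝ)} (k : Fin n) : 0 ≤ face A k := by
  cases n with
  | zero => exact k.elim0
  | succ m => exact sectAt_nonneg A k 0

lemma slAt_succ_slice (A : Set (Fin (n + 2) → ℝ)) (k : Fin (n + 1)) (s t : ℝ) :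
    slAt (slAt A k.succ s) 0 t = slAt (slAt A 0 t) k s := by
  ext z
  simp only [slAt, mem_ofPred_eq, Fin.insertNth_zero']
  have : (Fin.insertNth k.succ s (Fin.cons t z) : Fin (n + 2) → ℝ) =
      Fin.cons t (Fin.insertNth k s z) := by
    funext l
    refine (Fin.forall_iff_succAbove k.succ (P := fun l =>
      (Fin.insertNth k.succ s (Fin.cons t z) : Fin (n + 2) → ℝ) l =
        (Fin.cons t (Fin.insertNth k s z) : Fin (n + 2) → ℝ) l)).2 ⟨by simp, fun j => ?_⟩ l
    refine Fin.cases ?_ (fun j' => ?_) j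
    · simp
    · simp [Fin.succ_succAbove_succ]
  rw [this]

/-- The face integral splits along the first coordinate. -/
theorem face_succ {A : Set (Fin (n + 1) → ℝ)} (hA : Down A) (k : Fin n) :
    IntegrableOn (fun t => face (slAt A 0 t) k) (Ioi 0) ∧
      face A k.succ = ∫ t in Ioi (0:ℝ), face (slAt A 0 t) k := by
  cases n with
  | zero => exact k.elim0
  | succ m =>
    have hD := slAt_down hA k.succ 0
    have h := slice_integral hD 0 (F := fun _ => (1:ℝ)) continuous_const
    simp only [setIntegral_const, smul_eq_mul, mul_one, slAt_succ_slice] at h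
    exact ⟨h.1, h.2⟩

end Vale.Agent.P254.Sym
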